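import Vale.Agent.P193.Full.Sys

/-! Regular graphs: finite unions of pieces, and their calculus. -/

open Classical

noncomputable section

namespace Vale.Agent.P193

universe u

variable {X : Type u} {H : Halving X}

/-! ### Prefixes -/

theorem pre_append (v w : List Bool) (x : X) : H.pre (v ++ w) x = H.pre v (H.pre w x) := by
  induction v with
  | nil => rfl
  | cons c v ih => simp only [List.cons_append, Halving.pre, ih]

theorem pre_injective (v : List Bool) : Function.Injective (H.pre v) := by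
  induction v with
  | nil => exact fun _ _ h => h
  | cons c v ih =>
    intro x y h
    exact ih (congrArg Prod.snd (H.cons.injective h))

theorem pre_inj_len {v w : List Bool} {x y : X} (hl : v.length = w.length)
    (h : H.pre v x = H.pre w y) : v = w ∧ x = y := by
  induction v generalizing w with
  | nil =>
    cases w with
    | nil => exact ⟨rfl, h⟩
    | cons => simp at hl
  | cons c v ih =>
    cases w with
    | nil => simp at hl
    | cons d w =>
      have e := H.cons.injective h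
      simp only [Prod.mk.injEq] at e
      obtain ⟨e1, e2⟩ := ih (Nat.succ.inj hl) e.2
      exact ⟨by rw [e.1, e1], e2⟩

theorem pre_surj (H : Halving X) (n : ℕ) (z : X) :
    ∃ v x, v.length = n ∧ z = H.pre v x := by
  induction n generalizing z with
  | zero => exact ⟨[], z, rfl, rfl⟩
  | succ n ih =>
    obtain ⟨v, x, hv, hx⟩ := ih (H.cons.symm z).2
    refine ⟨(H.cons.symm z).1 :: v, x, by simp [hv], ?_⟩
    simp only [Halving.pre, ← hx, Prod.mk.eta, Equiv.apply_symm_apply]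

/-- Comparable prefixes. -/
theorem pre_eq_prefix {v w : List Bool} {x y : X} (hl : v.length ≤ w.length)
    (h : H.pre v x = H.pre w y) : ∃ r, w = v ++ r ∧ x = H.pre r y := by
  induction v generalizing w with
  | nil => exact ⟨w, rfl, h⟩
  | cons c v ih =>
    cases w with
    | nil => simp at hl
    | cons d w =>
      have e := H.cons.injective h
      simp only [Prod.mk.injEq] at e
      obtain ⟨r, r1, r2⟩ := ih (Nat.succ_le_succ_iff.1 hl) e.2
      exact ⟨r, by rw [e.1, r1, List.cons_append], r2⟩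

/-- Two cylinders are disjoint. -/
def Incomp (H : Halving X) (v w : List Bool) : Prop := ∀ x y, H.pre v x ≠ H.pre w y

theorem Incomp.symm {v w : List Bool} (h : Incomp H v w) : Incomp H w v :=
  fun x y e => h y x e.symm

theorem incomp_cons {c d : Bool} (h : c ≠ d) (v w : List Bool) : Incomp H (c :: v) (d :: w) :=
  fun _ _ e => h (congrArg Prod.fst (H.cons.injective e))

/-- All words of a given length. -/
def words : ℕ → List (List Bool)
  | 0 => [[]]
  | n + 1 => (words n).map (fun v => false :: v) ++ (words n).map (fun v => true :: v)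

theorem mem_words {n : ℕ} {v : List Bool} : v ∈ words n ↔ v.length = n := by
  induction n generalizing v with
  | zero => simp [words]
  | succ n ih =>
    simp only [words, List.mem_append, List.mem_map, ih]
    constructor
    · rintro (⟨w, hw, rfl⟩ | ⟨w, hw, rfl⟩) <;> simp [hw]
    · intro h
      cases v with
      | nil => simp at h
      | cons c v =>
        have hv : v.length = n := Nat.succ.inj h
        cases c
        · exact Or.inl ⟨v, hv, rfl⟩
        · exact Or.inr ⟨v, hv, rfl⟩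

/-! ### Coefficient idempotents -/

variable (M : Coeff H)

/-- The sets on which the identity is a coefficient. -/
def Idem (s : Set X) : Prop := M.mem (gid s)

variable {M}

theorem mem_gid {s : Set X} {x y : X} : (x, y) ∈ gid s ↔ x = y ∧ x ∈ s := Iff.rfl

theorem gdom_gid (s : Set X) : gdom (gid s) = s := by
  ext x; exact ⟨fun ⟨_, h⟩ => h.2, fun h => ⟨x, rfl, h⟩⟩

theorem gran_gid (s : Set X) : gran (gid s) = s := by
  ext x
  refine ⟨fun ⟨y, h⟩ => ?_, fun h => ⟨x, rfl, h⟩⟩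
  obtain ⟨e, hy⟩ := h
  simp only at e hy
  exact e ▸ hy

theorem idem_univ : Idem M Set.univ := M.one_mem

theorem idem_compl {s : Set X} (h : Idem M s) : Idem M sᶜ := by
  have := M.compl_mem _ h
  rwa [gdom_gid] at this

theorem idem_empty : Idem M (∅ : Set X) := by
  simpa using idem_compl (idem_univ (M := M))

theorem idem_inter {s t : Set X} (hs : Idem M s) (ht : Idem M t) : Idem M (s ∩ t) := by
  have h := M.comp_mem _ _ hs ht
  unfold Idem
  convert h using 1
  ext ⟨x, y⟩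
  simp only [gid, gcomp, Set.mem_ofPred_eq, Set.mem_inter_iff]
  constructor
  · rintro ⟨rfl, h1, h2⟩; exact ⟨x, ⟨rfl, h1⟩, rfl, h2⟩
  · rintro ⟨z, ⟨rfl, h1⟩, rfl, h2⟩; exact ⟨rfl, h1, h2⟩

theorem idem_diff {s t : Set X} (hs : Idem M s) (ht : Idem M t) : Idem M (s \ t) :=
  idem_inter hs (idem_compl ht)

theorem idem_union {s t : Set X} (hs : Idem M s) (ht : Idem M t) : Idem M (s ∪ t) := by
  have h := idem_compl (idem_inter (idem_compl hs) (idem_compl ht))
  rwa [Set.compl_inter, compl_compl, compl_compl] at h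

theorem idem_gdom {m : Set (X × X)} (h : M.mem m) : Idem M (gdom m) := by
  simpa using idem_compl (M.compl_mem _ h)

theorem gdom_ginv (m : Set (X × X)) : gdom (ginv m) = gran m := rfl

theorem gran_ginv (m : Set (X × X)) : gran (ginv m) = gdom m := rfl

theorem ginv_ginv (m : Set (X × X)) : ginv (ginv m) = m := rfl

theorem idem_gran {m : Set (X × X)} (h : M.mem m) : Idem M (gran m) :=
  idem_gdom (M.inv_mem _ h)

theorem idem_image {m : Set (X × X)} {s : Set X} (hm : M.mem m) (hs : Idem M s) :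
    Idem M {y | ∃ x ∈ s, (x, y) ∈ m} := by
  have h := idem_gran (M.comp_mem _ _ hs hm)
  convert h using 1
  ext y
  simp only [gran, gcomp, gid, Set.mem_ofPred_eq]
  constructor
  · rintro ⟨x, hx, hxy⟩; exact ⟨x, x, ⟨rfl, hx⟩, hxy⟩
  · rintro ⟨x, z, ⟨rfl, hx⟩, hxy⟩; exact ⟨x, hx, hxy⟩

theorem mem_restrict {m : Set (X × X)} {s : Set X} (hm : M.mem m) (hs : Idem M s) :
    M.mem {p | p ∈ m ∧ p.1 ∈ s} := by
  have h := M.comp_mem _ _ hs hm
  convert h using 1
  ext ⟨x, y⟩
  simp only [gcomp, gid, Set.mem_ofPred_eq]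
  constructor
  · rintro ⟨h1, h2⟩; exact ⟨x, ⟨rfl, h2⟩, h1⟩
  · rintro ⟨z, ⟨rfl, h2⟩, h1⟩; exact ⟨h1, h2⟩

theorem mem_pre_iff {m : Set (X × X)} (hm : M.mem m) (r : List Bool) (x y : X) :
    (H.pre r x, H.pre r y) ∈ m ↔ (x, y) ∈ m := by
  induction r with
  | nil => rfl
  | cons c r ih => simp only [Halving.pre, M.bit _ hm, ih, true_and]

theorem pre_of_mem {m : Set (X × X)} (hm : M.mem m) {r : List Bool} {x z : X}
    (h : (H.pre r x, z) ∈ m) : ∃ y, z = H.pre r y ∧ (x, y) ∈ m := by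
  induction r generalizing z with
  | nil => exact ⟨z, rfl, h⟩
  | cons c r ih =>
    obtain ⟨⟨d, z'⟩, rfl⟩ := H.cons.surjective z
    simp only [Halving.pre, M.bit _ hm] at h
    obtain ⟨rfl, h⟩ := h
    obtain ⟨y, rfl, hy⟩ := ih h
    exact ⟨y, rfl, hy⟩

/-- Idempotents do not see leading bits. -/
theorem idem_pre {s : Set X} (hs : Idem M s) (r : List Bool) (x : X) :
    H.pre r x ∈ s ↔ x ∈ s := by
  have := mem_pre_iff hs r x x
  simpa [mem_gid] using this

/-! ### Pieces -/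

theorem mem_piece {v w : List Bool} {m : Set (X × X)} {p : X × X} :
    p ∈ piece H v w m ↔ ∃ x y, (x, y) ∈ m ∧ p = (H.pre v x, H.pre w y) :=
  ⟨fun ⟨⟨x, y⟩, h, e⟩ => ⟨x, y, h, e.symm⟩, fun ⟨x, y, h, e⟩ => ⟨(x, y), h, e.symm⟩⟩

theorem piece_mem {v w : List Bool} {m : Set (X × X)} {x y : X} (h : (x, y) ∈ m) :
    (H.pre v x, H.pre w y) ∈ piece H v w m :=
  mem_piece.2 ⟨x, y, h, rfl⟩

theorem piece_pre_iff {v w : List Bool} {m : Set (X × X)} {x y : X} :
    (H.pre v x, H.pre w y) ∈ piece H v w m ↔ (x, y) ∈ m := by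
  refine ⟨fun h => ?_, piece_mem⟩
  obtain ⟨a, b, h, e⟩ := mem_piece.1 h
  simp only [Prod.mk.injEq] at e
  rwa [pre_injective v e.1, pre_injective w e.2]

/-- Refining a piece. -/
theorem piece_refine {m : Set (X × X)} (hm : M.mem m) (v w : List Bool) (k : ℕ) {p : X × X} :
    p ∈ piece H v w m ↔ ∃ r ∈ words k, p ∈ piece H (v ++ r) (w ++ r) m := by
  constructor
  · intro hp
    obtain ⟨x, y, hxy, rfl⟩ := mem_piece.1 hp
    obtain ⟨r, x', hr, rfl⟩ := pre_surj H k x
    obtain ⟨y', rfl, h'⟩ := pre_of_mem hm hxy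
    refine ⟨r, mem_words.2 hr, ?_⟩
    rw [← pre_append, ← pre_append]
    exact piece_mem h'
  · rintro ⟨r, -, hp⟩
    obtain ⟨x, y, hxy, rfl⟩ := mem_piece.1 hp
    rw [pre_append, pre_append]
    exact piece_mem ((mem_pre_iff hm r x y).2 hxy)

theorem ginv_piece (v w : List Bool) (m : Set (X × X)) :
    ginv (piece H v w m) = piece H w v (ginv m) := by
  ext ⟨a, b⟩
  simp only [ginv, Set.mem_ofPred_eq, mem_piece, Prod.mk.injEq]
  constructor
  · rintro ⟨x, y, h, rfl, rfl⟩; exact ⟨y, x, h, rfl, rfl⟩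
  · rintro ⟨x, y, h, rfl, rfl⟩; exact ⟨y, x, h, rfl, rfl⟩

/-! ### Regular graphs -/

variable (M)

/-- A piece, as data. -/
abbrev Dat (X : Type u) := List Bool × List Bool × Set (X × X)

/-- The union of a list of pieces. -/
def unionOf (H : Halving X) (l : List (Dat X)) : Set (X × X) :=
  {p | ∃ t ∈ l, p ∈ piece H t.1 t.2.1 t.2.2}

/-- Finite unions of pieces. -/
def Reg (b : Set (X × X)) : Prop :=
  ∃ l : List (Dat X), (∀ t ∈ l, M.mem t.2.2) ∧ b = unionOf H l

variable {M}

theorem isBis_iff {b : Set (X × X)} :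
    IsBis M b ↔ IsPB b ∧ Disjoint (gdom b) (gran b) ∧ Reg M b := Iff.rfl

theorem unionOf_append (l l' : List (Dat X)) :
    unionOf H (l ++ l') = unionOf H l ∪ unionOf H l' := by
  ext p
  simp only [unionOf, List.mem_append, Set.mem_union, Set.mem_ofPred_eq, or_and_right, exists_or]

theorem unionOf_cons (t : Dat X) (l : List (Dat X)) :
    unionOf H (t :: l) = piece H t.1 t.2.1 t.2.2 ∪ unionOf H l := by
  ext p
  simp only [unionOf, List.mem_cons, Set.mem_union, Set.mem_ofPred_eq, exists_eq_or_imp]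

theorem reg_empty : Reg M (∅ : Set (X × X)) := ⟨[], by simp, by ext p; simp [unionOf]⟩

theorem reg_piece {v w : List Bool} {m : Set (X × X)} (hm : M.mem m) : Reg M (piece H v w m) :=
  ⟨[(v, w, m)], by simpa using hm, by ext p; simp [unionOf]⟩

theorem reg_union {a b : Set (X × X)} (ha : Reg M a) (hb : Reg M b) : Reg M (a ∪ b) := by
  obtain ⟨l, hl, rfl⟩ := ha
  obtain ⟨l', hl', rfl⟩ := hb
  exact ⟨l ++ l', fun t ht => (List.mem_append.1 ht).elim (hl t) (hl' t),
    (unionOf_append l l').symm⟩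

theorem reg_biUnion {β : Type*} (L : List β) (f : β → Set (X × X)) (h : ∀ i ∈ L, Reg M (f i)) :
    Reg M {p | ∃ i ∈ L, p ∈ f i} := by
  induction L with
  | nil => convert reg_empty (M := M); simp
  | cons a L ih =>
    have := reg_union (h a (List.mem_cons_self ..)) (ih fun i hi => h i (List.mem_cons_of_mem _ hi))
    convert this using 1
    ext p
    simp only [List.mem_cons, Set.mem_union, Set.mem_ofPred_eq, exists_eq_or_imp]

theorem reg_ginv {b : Set (X × X)} (hb : Reg M b) : Reg M (ginv b) := by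
  obtain ⟨l, hl, rfl⟩ := hb
  refine ⟨l.map (fun t => (t.2.1, t.1, ginv t.2.2)), ?_, ?_⟩
  · intro t ht
    obtain ⟨t', ht', rfl⟩ := List.mem_map.1 ht
    exact M.inv_mem _ (hl t' ht')
  · ext p
    simp only [unionOf, Set.mem_ofPred_eq, List.mem_map, exists_exists_and_eq_and]
    constructor
    · rintro ⟨t, ht, h⟩
      exact ⟨t, ht, by rw [← ginv_piece]; exact h⟩
    · rintro ⟨t, ht, h⟩
      rw [← ginv_piece] at h
      exact ⟨t, ht, h⟩

theorem gcomp_piece_eq {v w w' z : List Bool} {m m' : Set (X × X)} (hl : w.length = w'.length) :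
    gcomp (piece H v w m) (piece H w' z m') =
      if w = w' then piece H v z (gcomp m m') else ∅ := by
  ext ⟨a, b⟩
  constructor
  · rintro ⟨c, h1, h2⟩
    obtain ⟨x, y, hxy, e⟩ := mem_piece.1 h1
    obtain ⟨y', q, hyq, e'⟩ := mem_piece.1 h2
    simp only [Prod.mk.injEq] at e e'
    obtain ⟨rfl, rfl⟩ := e
    obtain ⟨e1, rfl⟩ := e'
    obtain ⟨rfl, rfl⟩ := pre_inj_len hl e1
    rw [if_pos rfl]
    exact piece_mem ⟨y, hxy, hyq⟩
  · intro h
    split_ifs at h with hw
    · subst hw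
      obtain ⟨x, q, ⟨y, hxy, hyq⟩, e⟩ := mem_piece.1 h
      simp only [Prod.mk.injEq] at e
      obtain ⟨rfl, rfl⟩ := e
      exact ⟨H.pre w y, piece_mem hxy, piece_mem hyq⟩
    · exact absurd h (Set.notMem_empty _)

theorem reg_gcomp_piece {v w v' w' : List Bool} {m m' : Set (X × X)} (hm : M.mem m)
    (hm' : M.mem m') : Reg M (gcomp (piece H v w m) (piece H v' w' m')) := by
  have h : gcomp (piece H v w m) (piece H v' w' m') =
      {p | ∃ r ∈ words v'.length, p ∈ {p | ∃ r' ∈ words w.length,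
        p ∈ gcomp (piece H (v ++ r) (w ++ r) m) (piece H (v' ++ r') (w' ++ r') m')}} := by
    ext ⟨a, b⟩
    constructor
    · rintro ⟨c, h1, h2⟩
      obtain ⟨r, hr, h1⟩ := (piece_refine hm v w v'.length).1 h1
      obtain ⟨r', hr', h2⟩ := (piece_refine hm' v' w' w.length).1 h2
      exact ⟨r, hr, r', hr', c, h1, h2⟩
    · rintro ⟨r, hr, r', hr', c, h1, h2⟩
      exact ⟨c, (piece_refine hm v w _).2 ⟨r, hr, h1⟩, (piece_refine hm' v' w' _).2 ⟨r', hr', h2⟩⟩
  rw [h]
  refine reg_biUnion _ _ fun r hr => reg_biUnion _ _ fun r' hr' => ?_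
  rw [gcomp_piece_eq (by simp [mem_words.1 hr, mem_words.1 hr', add_comm])]
  split_ifs
  · exact reg_piece (M.comp_mem _ _ hm hm')
  · exact reg_empty

theorem reg_gcomp {a b : Set (X × X)} (ha : Reg M a) (hb : Reg M b) : Reg M (gcomp a b) := by
  obtain ⟨l, hl, rfl⟩ := ha
  obtain ⟨l', hl', rfl⟩ := hb
  have h : gcomp (unionOf H l) (unionOf H l') = {p | ∃ t ∈ l, p ∈ {p | ∃ t' ∈ l',
      p ∈ gcomp (piece H t.1 t.2.1 t.2.2) (piece H t'.1 t'.2.1 t'.2.2)}} := by
    ext ⟨x, y⟩
    constructor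
    · rintro ⟨c, ⟨t, ht, h1⟩, ⟨t', ht', h2⟩⟩; exact ⟨t, ht, t', ht', c, h1, h2⟩
    · rintro ⟨t, ht, t', ht', c, h1, h2⟩; exact ⟨c, ⟨t, ht, h1⟩, ⟨t', ht', h2⟩⟩
  rw [h]
  exact reg_biUnion _ _ fun t ht => reg_biUnion _ _ fun t' ht' =>
    reg_gcomp_piece (hl t ht) (hl' t' ht')

theorem le_list_sum {l : List ℕ} {a : ℕ} (h : a ∈ l) : a ≤ l.sum := by
  induction l with
  | nil => simp at h
  | cons b l ih =>
    rcases List.mem_cons.1 h with rfl | h
    · simp
    · simp only [List.sum_cons]; have := ih h; omega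

/-- Every regular graph has pieces with sources of one length and targets at least as long. -/
theorem reg_normal {b : Set (X × X)} (hb : Reg M b) (n : ℕ) :
    ∃ (N : ℕ) (l : List (Dat X)), n ≤ N ∧ (∀ t ∈ l, M.mem t.2.2 ∧ t.1.length = N ∧
      n ≤ t.2.1.length) ∧ b = unionOf H l := by
  obtain ⟨l, hl, rfl⟩ := hb
  set N := n + (l.map fun t => t.1.length).sum with hN
  have hle : ∀ t ∈ l, t.1.length + n ≤ N := fun t ht => by
    have := le_list_sum (List.mem_map_of_mem (f := fun t : Dat X => t.1.length) ht)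
    omega
  refine ⟨N, l.flatMap (fun t => (words (N - t.1.length)).map
    fun r => (t.1 ++ r, t.2.1 ++ r, t.2.2)), by omega, ?_, ?_⟩
  · intro t ht
    simp only [List.mem_flatMap, List.mem_map] at ht
    obtain ⟨t', ht', r, hr, rfl⟩ := ht
    have := hle t' ht'
    refine ⟨hl t' ht', ?_, ?_⟩ <;>
      simp only [List.length_append, mem_words.1 hr] <;> omega
  · ext p
    simp only [unionOf, List.mem_flatMap, List.mem_map, Set.mem_ofPred_eq]
    constructor
    · rintro ⟨t, ht, h⟩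
      obtain ⟨r, hr, h⟩ := (piece_refine (hl t ht) _ _ (N - t.1.length)).1 h
      exact ⟨_, ⟨t, ht, r, hr, rfl⟩, h⟩
    · rintro ⟨_, ⟨t, ht, r, hr, rfl⟩, h⟩
      exact ⟨t, ht, (piece_refine (hl t ht) _ _ _).2 ⟨r, hr, h⟩⟩

/-- Complements of domains of regular graphs. -/
theorem reg_gid_compl_gdom {b : Set (X × X)} (hb : Reg M b) : Reg M (gid (gdom b)ᶜ) := by
  obtain ⟨N, l, -, hl, rfl⟩ := reg_normal hb 0
  let D : List Bool → Set X := fun u => {x | ∀ t ∈ l, t.1 = u → x ∉ gdom t.2.2}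
  have hD : ∀ u, Idem M (D u) := by
    intro u
    have : ∀ l' : List (Dat X), (∀ t ∈ l', M.mem t.2.2) →
        Idem M {x | ∀ t ∈ l', t.1 = u → x ∉ gdom t.2.2} := by
      intro l' hl'
      induction l' with
      | nil => convert idem_univ (M := M); simp
      | cons a l' ih =>
        have hrec := ih fun t ht => hl' t (List.mem_cons_of_mem _ ht)
        by_cases ha : a.1 = u
        · convert idem_inter (idem_compl (idem_gdom (hl' a (List.mem_cons_self ..)))) hrec using 1
          ext x; simp [ha]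
        · convert hrec using 1
          ext x; simp [ha]
    exact this l fun t ht => (hl t ht).1
  have h : gid (gdom (unionOf H l))ᶜ =
      {p | ∃ u ∈ words N, p ∈ piece H u u (gid (D u))} := by
    ext ⟨a, b⟩
    constructor
    · rintro ⟨hab, ha⟩
      simp only at hab ha
      subst hab
      obtain ⟨u, x, hu, rfl⟩ := pre_surj H N a
      refine ⟨u, mem_words.2 hu, piece_mem ⟨rfl, fun t ht htu hx => ha ?_⟩⟩
      obtain ⟨y, hy⟩ := hx
      subst htu
      exact ⟨_, t, ht, piece_mem hy⟩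
    · rintro ⟨u, hu, h⟩
      obtain ⟨x, y, ⟨hxy, hx⟩, e⟩ := mem_piece.1 h
      simp only at hxy hx
      simp only [Prod.mk.injEq] at e
      subst hxy
      obtain ⟨rfl, rfl⟩ := e
      refine ⟨rfl, ?_⟩
      rintro ⟨c, t, ht, hc⟩
      obtain ⟨x', y', hm, e⟩ := mem_piece.1 hc
      simp only [Prod.mk.injEq] at e
      obtain ⟨e1, e2⟩ := pre_inj_len (by rw [mem_words.1 hu, (hl t ht).2.1]) e.1
      exact hx t ht e1.symm ⟨y', e2 ▸ hm⟩
  rw [h]
  exact reg_biUnion _ _ fun u _ => reg_piece (hD u)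

theorem gcomp_gid (s t : Set X) : gcomp (gid s) (gid t) = gid (s ∩ t) := by
  ext ⟨x, y⟩
  constructor
  · rintro ⟨z, ⟨e1, h1⟩, e2, h2⟩
    simp only at e1 h1 e2 h2
    subst e1 e2
    exact ⟨rfl, h1, h2⟩
  · rintro ⟨e, h1, h2⟩
    simp only at e h1 h2
    subst e
    exact ⟨x, ⟨rfl, h1⟩, rfl, h2⟩

/-- The graph of a permutation. -/
def graphOf (σ : Equiv.Perm X) : Set (X × X) := {p | σ p.1 = p.2}

theorem image_eq_gcomp (σ : Equiv.Perm X) (b : Set (X × X)) :
    (fun p => (σ p.1, σ p.2)) '' b = gcomp (gcomp (ginv (graphOf σ)) b) (graphOf σ) := by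
  ext ⟨x, y⟩
  constructor
  · rintro ⟨⟨a, c⟩, h, e⟩
    simp only [Prod.mk.injEq] at e
    exact ⟨c, ⟨a, e.1, h⟩, e.2⟩
  · rintro ⟨c, ⟨a, ha, h⟩, hc⟩
    exact ⟨(a, c), h, Prod.ext ha hc⟩

theorem reg_image {σ : Equiv.Perm X} {b : Set (X × X)} (hσ : Reg M (graphOf σ)) (hb : Reg M b) :
    Reg M ((fun p => (σ p.1, σ p.2)) '' b) := by
  rw [image_eq_gcomp]
  exact reg_gcomp (reg_gcomp (reg_ginv hσ) hb) hσ

theorem isBis_image {σ : Equiv.Perm X} {b : Set (X × X)} (hσ : Reg M (graphOf σ))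
    (hb : IsBis M b) : IsBis M ((fun p => (σ p.1, σ p.2)) '' b) := by
  obtain ⟨⟨h1, h2⟩, hd, hr⟩ := isBis_iff.1 hb
  refine isBis_iff.2 ⟨⟨?_, ?_⟩, ?_, reg_image hσ hr⟩
  · rintro x y z ⟨⟨a, c⟩, hac, e⟩ ⟨⟨a', c'⟩, hac', e'⟩
    simp only [Prod.mk.injEq] at e e'
    obtain rfl : a = a' := σ.injective (e.1.trans e'.1.symm)
    rw [← e.2, ← e'.2, h1 _ _ _ hac hac']
  · rintro x y z ⟨⟨a, c⟩, hac, e⟩ ⟨⟨a', c'⟩, hac', e'⟩
    simp only [Prod.mk.injEq] at e e'
    obtain rfl : c = c' := σ.injective (e.2.trans e'.2.symm)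
    rw [← e.1, ← e'.1, h2 _ _ _ hac hac']
  · rw [Set.disjoint_left]
    rintro x ⟨y, ⟨a, c⟩, hac, e⟩ ⟨y', ⟨a', c'⟩, hac', e'⟩
    simp only [Prod.mk.injEq] at e e'
    obtain rfl : a = c' := σ.injective (e.1.trans e'.2.symm)
    exact Set.disjoint_left.1 hd ⟨c, hac⟩ ⟨a', hac'⟩

end Vale.Agent.P193
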