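import Vale.Agent.P193.Full.Inj.Rot

/-! Simple generators, pushing through trees, injectivity. -/

open Classical

noncomputable section

namespace Vale.Agent.P193

universe u

variable {X : Type u} {H : Halving X} {M : Coeff H}

/-- Neither word is a prefix of the other. -/
def Apart (v w : List Bool) : Prop := ¬ v <+: w ∧ ¬ w <+: v

theorem Apart.symm {v w : List Bool} (h : Apart v w) : Apart w v := ⟨h.2, h.1⟩

theorem Apart.not_both {v w u : List Bool} (h : Apart v w) (hv : v <+: u) (hw : w <+: u) :
    False := by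
  rcases le_total v.length w.length with hl | hl
  · exact h.1 (List.prefix_of_prefix_length_le hv hw hl)
  · exact h.2 (List.prefix_of_prefix_length_le hw hv hl)

theorem Apart.incomp {v w : List Bool} (h : Apart v w) : Incomp H v w := by
  intro x y e
  rcases le_total v.length w.length with hl | hl
  · obtain ⟨r, rfl, -⟩ := pre_eq_prefix hl e
    exact h.1 (List.prefix_append _ _)
  · obtain ⟨r, rfl, -⟩ := pre_eq_prefix hl e.symm
    exact h.2 (List.prefix_append _ _)

theorem apart_heads {c d : Bool} (h : c ≠ d) (v w : List Bool) : Apart (c :: v) (d :: w) :=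
  ⟨fun e => h (List.cons_prefix_cons.1 e).1, fun e => h (List.cons_prefix_cons.1 e).1.symm⟩

theorem Apart.append {v w : List Bool} (h : Apart v w) (r s : List Bool) :
    Apart (v ++ r) (w ++ s) :=
  ⟨fun e => h.not_both ((List.prefix_append v r).trans e) (List.prefix_append w s),
    fun e => h.not_both (List.prefix_append v r) ((List.prefix_append w s).trans e)⟩

theorem apart_bits (v : List Bool) : Apart (v ++ [false]) (v ++ [true]) := by
  constructor <;> intro e <;> simp [List.prefix_append_right_inj] at e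

theorem isBis_piece {v w : List Bool} {m : Set (X × X)} (h : Incomp H v w) (hm : M.mem m) :
    IsBis M (piece H v w m) := by
  refine isBis_iff.2 ⟨⟨?_, ?_⟩, ?_, reg_piece hm⟩
  · intro x y z hxy hxz
    obtain ⟨a, c, hac, e⟩ := mem_piece.1 hxy
    obtain ⟨a', c', hac', e'⟩ := mem_piece.1 hxz
    simp only [Prod.mk.injEq] at e e'
    obtain rfl : a = a' := pre_injective v (e.1.symm.trans e'.1)
    rw [e.2, e'.2, (M.pb m hm).1 _ _ _ hac hac']
  · intro x y z hxy hxz
    obtain ⟨a, c, hac, e⟩ := mem_piece.1 hxy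
    obtain ⟨a', c', hac', e'⟩ := mem_piece.1 hxz
    simp only [Prod.mk.injEq] at e e'
    obtain rfl : c = c' := pre_injective w (e.2.symm.trans e'.2)
    rw [e.1, e'.1, (M.pb m hm).2 _ _ _ hac hac']
  · rw [Set.disjoint_left]
    rintro x ⟨y, hxy⟩ ⟨y', hyx⟩
    obtain ⟨a, c, -, e⟩ := mem_piece.1 hxy
    obtain ⟨a', c', -, e'⟩ := mem_piece.1 hyx
    simp only [Prod.mk.injEq] at e e'
    exact h _ _ (e.1.symm.trans e'.2)

/-- A single piece between apart prefixes. -/
def simpleBis {v w : List Bool} {m : Set (X × X)} (h : Apart v w) (hm : M.mem m) : Bis M :=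
  ⟨piece H v w m, isBis_piece h.incomp hm⟩

theorem isBis_sub {b s : Set (X × X)} (hb : IsBis M b) (hs : s ⊆ b) (hr : Reg M s) :
    IsBis M s :=
  isBis_iff.2 ⟨⟨fun x y z h h' => hb.1.1 x y z (hs h) (hs h'),
      fun x y z h h' => hb.1.2 x y z (hs h) (hs h')⟩,
    Set.disjoint_left.2 fun _ ⟨y, h⟩ ⟨y', h'⟩ =>
      Set.disjoint_left.1 hb.2.1 ⟨y, hs h⟩ ⟨y', hs h'⟩, hr⟩

theorem supp_piece {v w : List Bool} {m : Set (X × X)} {z : X} (h : z ∈ supp (piece H v w m)) :
    (∃ x, x ∈ gdom m ∧ z = H.pre v x) ∨ ∃ y, y ∈ gran m ∧ z = H.pre w y := by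
  rcases h with ⟨y, h⟩ | ⟨y, h⟩ <;> obtain ⟨a, c, hac, e⟩ := mem_piece.1 h <;>
    simp only [Prod.mk.injEq] at e
  · exact Or.inl ⟨a, ⟨c, hac⟩, e.1⟩
  · exact Or.inr ⟨c, ⟨a, hac⟩, e.2⟩

theorem piece_split {v w : List Bool} {m : Set (X × X)} (hm : M.mem m) :
    piece H v w m =
      piece H (v ++ [false]) (w ++ [false]) m ∪ piece H (v ++ [true]) (w ++ [true]) m := by
  ext p
  rw [piece_refine hm v w 1]
  simp [words]

theorem tau_split {v w : List Bool} {m : Set (X × X)} (h : Apart v w) (hm : M.mem m) :
    tau (simpleBis (h.append [false] [false]) hm) * tau (simpleBis (h.append [true] [true]) hm) =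
      tau (simpleBis (M := M) h hm) := by
  refine tau_add _ _ _ (Set.disjoint_left.2 ?_) (piece_split hm)
  intro z hz hz'
  have hvv : Incomp H (v ++ [false]) (v ++ [true]) := (apart_bits v).incomp
  have hww : Incomp H (w ++ [false]) (w ++ [true]) := (apart_bits w).incomp
  rcases supp_piece hz with ⟨x, -, rfl⟩ | ⟨x, -, rfl⟩ <;>
    rcases supp_piece hz' with ⟨y, -, e⟩ | ⟨y, -, e⟩
  · exact hvv _ _ e
  · exact (h.append [false] [true]).incomp _ _ e
  · exact (h.symm.append [false] [true]).incomp _ _ e
  · exact hww _ _ e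

/-! ### Simple swaps generate -/

variable (M)

/-- Swaps of single pieces with different first bits. -/
def simples : Set (SchemaGroup M) :=
  {g | ∃ (c : Bool) (v w : List Bool) (m : Set (X × X)) (hm : M.mem m),
    g = tau (simpleBis (apart_heads (c := c) (d := !c) (by cases c <;> decide) v w) hm)}

variable {M}

theorem tau_simple_mem {c d : Bool} (h : c ≠ d) (v w : List Bool) {m : Set (X × X)}
    (hm : M.mem m) : tau (simpleBis (apart_heads h v w) hm) ∈ simples M := by
  obtain rfl : d = !c := by cases c <;> cases d <;> simp_all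
  exact ⟨c, v, w, m, hm, rfl⟩

theorem piece_mem_closure {v w : List Bool} {m : Set (X × X)} (hm : M.mem m) (hv : 1 ≤ v.length)
    (hw : 1 ≤ w.length) (b : Bis M) (hb : b.1 = piece H v w m) :
    tau b ∈ Subgroup.closure (simples M) := by
  cases v with
  | nil => simp at hv
  | cons c v =>
    cases w with
    | nil => simp at hw
    | cons d w =>
      by_cases hcd : c = d
      · subst hcd
        have h1 : (!c) ≠ c := by cases c <;> decide
        let a : Bis M := simpleBis (apart_heads h1 [] w) (idem_gran hm)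
        let b₀ : Bis M := simpleBis (apart_heads h1.symm v []) hm
        have hfix : ∀ x y, (x, y) ∈ m → swapPerm a (H.pre (c :: v) x) = H.pre (c :: v) x := by
          intro x y hxy
          refine swap_fix a fun hs => ?_
          rcases supp_piece hs with ⟨x', -, e⟩ | ⟨y', hy', e⟩
          · exact incomp_cons h1.symm v [] _ _ e
          · rw [gran_gid] at hy'
            obtain ⟨x'', hx''⟩ := hy'
            have h2 : H.pre (c :: v) x ∈ gdom b.1 :=
              ⟨H.pre (c :: w) y, hb ▸ piece_mem hxy⟩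
            have h3 : H.pre (c :: v) x ∈ gran b.1 :=
              ⟨H.pre (c :: v) x'', by rw [hb, e]; exact piece_mem hx''⟩
            exact Set.disjoint_left.1 b.2.2.1 h2 h3
        have key : tau a * tau b₀ * (tau a)⁻¹ = tau b := by
          refine tau_conj _ _ _ ?_
          rw [schemaHom_tau, hb]
          simp only [b₀, simpleBis, piece, Set.image_image]
          refine Set.image_congr ?_
          rintro ⟨x, y⟩ hxy
          refine Prod.ext (hfix x y hxy).symm ?_
          exact (swap_fwd a (piece_mem ⟨rfl, x, hxy⟩)).symm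
        rw [← key]
        refine mul_mem (mul_mem ?_ ?_) (inv_mem ?_)
        · exact Subgroup.subset_closure (tau_simple_mem h1 [] w _)
        · exact Subgroup.subset_closure (tau_simple_mem h1.symm v [] hm)
        · exact Subgroup.subset_closure (tau_simple_mem h1 [] w _)
      · rw [tau_congr (b := simpleBis (apart_heads hcd v w) hm) hb]
        exact Subgroup.subset_closure (tau_simple_mem hcd v w hm)

theorem list_mem_closure (N : ℕ) (hN : 1 ≤ N) : ∀ (L : ℕ) (l : List (Dat X)), l.length = L →
    (∀ t ∈ l, M.mem t.2.2 ∧ t.1.length = N ∧ 1 ≤ t.2.1.length) →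
    ∀ b : Bis M, b.1 = unionOf H l → tau b ∈ Subgroup.closure (simples M) := by
  intro L
  induction L with
  | zero =>
    intro l hl _ b hb
    rw [List.length_eq_zero_iff] at hl
    subst hl
    rw [tau_empty b (by rw [hb]; ext p; simp [unionOf])]
    exact one_mem _
  | succ L ih =>
    intro l hl hmem b hb
    cases l with
    | nil => simp at hl
    | cons t l =>
      obtain ⟨hm, htN, htw⟩ := hmem t (List.mem_cons_self ..)
      let f : Dat X → Dat X := fun t' =>
        if t'.1 = t.1 then (t'.1, t'.2.1, {p | p ∈ t'.2.2 ∧ p.1 ∈ (gdom t.2.2)ᶜ}) else t'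
      have hrest : unionOf H (l.map f) =
          {p | p ∈ unionOf H l ∧ p.1 ∉ gdom (piece H t.1 t.2.1 t.2.2)} := by
        ext p
        simp only [unionOf, List.mem_map, exists_exists_and_eq_and, Set.mem_ofPred_eq]
        constructor
        · rintro ⟨t', ht', hp⟩
          have hN' := (hmem t' (List.mem_cons_of_mem _ ht')).2.1
          simp only [f] at hp
          split_ifs at hp with he
          · obtain ⟨x, y, ⟨hxy, hx⟩, rfl⟩ := mem_piece.1 hp
            refine ⟨⟨t', ht', piece_mem hxy⟩, ?_⟩
            rintro ⟨z, hz⟩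
            obtain ⟨x', y', hxy', e⟩ := mem_piece.1 hz
            simp only [Prod.mk.injEq] at e
            obtain rfl : x = x' := pre_injective t.1 (by rw [← e.1, he])
            exact hx ⟨y', hxy'⟩
          · refine ⟨⟨t', ht', hp⟩, ?_⟩
            rintro ⟨z, hz⟩
            obtain ⟨x, y, -, rfl⟩ := mem_piece.1 hp
            obtain ⟨x', y', -, e⟩ := mem_piece.1 hz
            simp only [Prod.mk.injEq] at e
            exact he (pre_inj_len (hN'.trans htN.symm) e.1).1
        · rintro ⟨⟨t', ht', hp⟩, hnot⟩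
          refine ⟨t', ht', ?_⟩
          simp only [f]
          split_ifs with he
          · obtain ⟨x, y, hxy, rfl⟩ := mem_piece.1 hp
            refine piece_mem ⟨hxy, fun ⟨z, hz⟩ => hnot ⟨H.pre t.2.1 z, ?_⟩⟩
            simp only [he]
            exact piece_mem hz
          · exact hp
      have hfmem : ∀ t' ∈ l.map f, M.mem t'.2.2 ∧ t'.1.length = N ∧ 1 ≤ t'.2.1.length := by
        intro t' ht'
        obtain ⟨t'', ht'', rfl⟩ := List.mem_map.1 ht'
        obtain ⟨h1, h2, h3⟩ := hmem t'' (List.mem_cons_of_mem _ ht'')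
        simp only [f]
        split_ifs
        · exact ⟨mem_restrict h1 (idem_compl (idem_gdom hm)), h2, h3⟩
        · exact ⟨h1, h2, h3⟩
      have hsub : piece H t.1 t.2.1 t.2.2 ⊆ b.1 := by
        rw [hb, unionOf_cons]
        exact Set.subset_union_left
      have hsub' : unionOf H (l.map f) ⊆ b.1 := by
        rw [hb, unionOf_cons, hrest]
        exact fun p hp => Or.inr hp.1
      let b₁ : Bis M := ⟨_, isBis_sub b.2 hsub (reg_piece hm)⟩
      let b₂ : Bis M := ⟨_, isBis_sub b.2 hsub' ⟨_, fun t' ht' => (hfmem t' ht').1, rfl⟩⟩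
      have hadd : tau b₁ * tau b₂ = tau b := by
        refine tau_add _ _ _ (Set.disjoint_left.2 ?_) ?_
        · rintro z (⟨y, hy⟩ | ⟨y, hy⟩) (⟨y', hy'⟩ | ⟨y', hy'⟩) <;>
            simp only [b₁, b₂] at hy hy'
          · rw [hrest] at hy'
            exact hy'.2 ⟨y, hy⟩
          · exact Set.disjoint_left.1 b.2.2.1 ⟨y, hsub hy⟩ ⟨y', hsub' hy'⟩
          · exact Set.disjoint_left.1 b.2.2.1 ⟨y', hsub' hy'⟩ ⟨y, hsub hy⟩
          · have := b.2.1.2 _ _ _ (hsub hy) (hsub' hy')
            subst this
            rw [hrest] at hy'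
            exact hy'.2 ⟨z, hy⟩
        · simp only [b₁, b₂]
          refine Set.Subset.antisymm ?_ (Set.union_subset hsub hsub')
          intro p hp
          by_cases hd : p.1 ∈ gdom (piece H t.1 t.2.1 t.2.2)
          · obtain ⟨y, hy⟩ := hd
            left
            rwa [show p = (p.1, y) from Prod.ext rfl (b.2.1.1 p.1 p.2 y hp (hsub hy))]
          · right
            rw [hb, unionOf_cons] at hp
            rw [hrest]
            exact ⟨hp.resolve_left fun h => hd ⟨p.2, h⟩, hd⟩
      rw [← hadd]
      exact mul_mem (piece_mem_closure hm (htN ▸ hN) htw b₁ rfl)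
        (ih (l.map f) (by simpa using hl) hfmem b₂ rfl)

theorem closure_simples : Subgroup.closure (simples M) = ⊤ := by
  rw [eq_top_iff]
  intro g hmemtop
  clear hmemtop
  induction g using tau_induction with
  | h1 => exact one_mem _
  | hm g h hg hh => exact mul_mem hg hh
  | hi g hg => exact inv_mem hg
  | ht b =>
    obtain ⟨N, l, hN, hl, he⟩ := reg_normal b.2.2.2 1
    exact list_mem_closure N hN _ l rfl hl b he

/-! ### Pushing -/

/-- `g` moves full enough trees to trees, doubling itself on the way. -/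
def Push (g : SchemaGroup M) : Prop :=
  ∀ m, ∃ n, ∀ T : Tree M, T.Full n → ∃ T' : Tree M, T'.Full m ∧ g * T.rot = T'.rot * dbl M g

theorem push_mul {g h : SchemaGroup M} (hg : Push g) (hh : Push h) : Push (g * h) := by
  intro m
  obtain ⟨n, hn⟩ := hg m
  obtain ⟨k, hk⟩ := hh n
  refine ⟨k, fun T hT => ?_⟩
  obtain ⟨T₁, hT₁, e₁⟩ := hk T hT
  obtain ⟨T₂, hT₂, e₂⟩ := hn T₁ hT₁
  refine ⟨T₂, hT₂, ?_⟩
  rw [mul_assoc, e₁, ← mul_assoc, e₂, map_mul, mul_assoc]

theorem push_one : Push (1 : SchemaGroup M) :=
  fun m => ⟨m, fun T hT => ⟨T, hT, by rw [map_one, one_mul, mul_one]⟩⟩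

/-- Strict prefixes of one of two words. -/
def Strict (v w u : List Bool) : Prop := (u <+: v ∧ u ≠ v) ∨ (u <+: w ∧ u ≠ w)

theorem Strict.lt {v w u : List Bool} (h : Strict v w u) :
    u.length < v.length + w.length := by
  rcases h with ⟨h, hne⟩ | ⟨h, hne⟩ <;>
  · have := h.length_le
    rcases this.lt_or_eq with hlt | he
    · omega
    · exact absurd (h.eq_of_length he) hne

theorem not_strict {v w u : List Bool} (h : Apart v w) (hu : v <+: u) : ¬ Strict v w u := by
  rintro (⟨h', hne⟩ | ⟨h', -⟩)
  · exact hne (h'.eq_of_length (le_antisymm h'.length_le hu.length_le))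
  · exact h.1 (hu.trans h')

theorem not_strict' {v w u : List Bool} (h : Apart v w) (hu : w <+: u) : ¬ Strict v w u := by
  rintro (⟨h', -⟩ | ⟨h', hne⟩)
  · exact h.2 (hu.trans h')
  · exact hne (h'.eq_of_length (le_antisymm h'.length_le hu.length_le))

theorem Strict.up {v w u r : List Bool} (h : Strict v w (u ++ r)) : Strict v w u := by
  have key : ∀ t, u ++ r <+: t → u ++ r ≠ t → u <+: t ∧ u ≠ t := fun t ht hne => by
    refine ⟨(List.prefix_append u r).trans ht, ?_⟩
    rintro rfl
    have := ht.length_le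
    simp at this
    subst this
    simp at hne
  exact h.imp (fun ⟨a, b⟩ => key v a b) (fun ⟨a, b⟩ => key w a b)

variable {v w : List Bool} {μ : Set (X × X)}

/-- The nodes above `v` or `w`. -/
def topNF (v w : List Bool) : NF M :=
  ⟨fun u => if Strict v w u then Set.univ else ∅, fun u => by
    dsimp only; split_ifs
    · exact idem_univ
    · exact idem_empty⟩

/-- The nodes of `T` outside the two sides. -/
def restNF (T : Tree M) (v w : List Bool) (hμ : M.mem μ) : NF M :=
  ⟨fun u => if Strict v w u then ∅ else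
      (T.F.1 u \ (if v <+: u then gdom μ else ∅)) \ (if w <+: u then gran μ else ∅), fun u => by
    dsimp only; split_ifs
    · exact idem_empty
    · exact idem_diff (idem_diff (T.F.2 u) (idem_gdom hμ)) (idem_gran hμ)
    · exact idem_diff (idem_diff (T.F.2 u) (idem_gdom hμ)) idem_empty
    · exact idem_diff (idem_diff (T.F.2 u) idem_empty) (idem_gran hμ)
    · exact idem_diff (idem_diff (T.F.2 u) idem_empty) idem_empty⟩

theorem mem_restNF {T : Tree M} {hμ : M.mem μ} {u : List Bool} {x : X} :
    x ∈ (restNF T v w hμ).1 u ↔ ¬ Strict v w u ∧ x ∈ T.F.1 u ∧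
      (v <+: u → x ∉ gdom μ) ∧ (w <+: u → x ∉ gran μ) := by
  by_cases hs : Strict v w u
  · simp [restNF, hs]
  · by_cases hv : v <+: u <;> by_cases hw : w <+: u <;> simp [restNF, hs, hv, hw, and_assoc]

theorem mem_topNF {u : List Bool} {x : X} : x ∈ (topNF (M := M) v w).1 u ↔ Strict v w u := by
  by_cases hs : Strict v w u <;> simp [topNF, hs]

theorem shift_transfer (hap : Apart v w) (hμ : M.mem μ) (a a' : NF M)
    (ha : ∀ r x, x ∈ a.1 r → x ∈ gdom μ)
    (ha' : ∀ r y, y ∈ a'.1 r ↔ ∃ x ∈ a.1 r, (x, y) ∈ μ) (k : ℕ) :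
    tau (simpleBis hap hμ) * endo M v (rotTo a k) =
      endo M w (rotTo a' k) * tau (simpleBis hap hμ) := by
  induction k with
  | zero => simp [rotTo]
  | succ k ih =>
    have h : tau (simpleBis hap hμ) * endo M v (level a k) * (tau (simpleBis hap hμ))⁻¹ =
        endo M w (level a' k) := by
      rw [level, endo_tau, level, endo_tau]
      refine tau_conj _ _ _ ?_
      rw [schemaHom_tau]
      ext ⟨p, q⟩
      simp only [levelBis, preBis, piece, Set.mem_image, Prod.mk.injEq, Prod.exists]
      have move : ∀ u x y, (x, y) ∈ μ → swapPerm (simpleBis hap hμ) (H.pre v (H.pre u x)) =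
          H.pre w (H.pre u y) := fun u x y hxy =>
        swap_fwd _ (piece_mem ((mem_pre_iff hμ u x y).2 hxy))
      constructor
      · rintro ⟨a1, b1, h, rfl, rfl⟩
        obtain ⟨u, y, hu, hy, e⟩ := mem_levelSet.1 h
        obtain ⟨x, hx, hxy⟩ := (ha' u y).1 hy
        simp only [Prod.mk.injEq] at e
        exact ⟨H.pre v (H.pre (u ++ [false, true]) x), H.pre v (H.pre (u ++ [true, false]) x),
          ⟨_, _, mem_levelSet.2 ⟨u, x, hu, hx, rfl⟩, rfl, rfl⟩,
          by rw [move _ x y hxy, e.1], by rw [move _ x y hxy, e.2]⟩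
      · rintro ⟨_, _, ⟨a1, b1, h, rfl, rfl⟩, rfl, rfl⟩
        obtain ⟨u, x, hu, hx, e⟩ := mem_levelSet.1 h
        obtain ⟨y, hxy⟩ := ha u x hx
        simp only [Prod.mk.injEq] at e
        exact ⟨_, _, mem_levelSet.2 ⟨u, y, hu, (ha' u y).2 ⟨x, hx, hxy⟩, rfl⟩,
          by rw [e.1, move _ x y hxy], by rw [e.2, move _ x y hxy]⟩
    rw [mul_inv_eq_iff_eq_mul] at h
    rw [rotTo, rotTo, map_mul, map_mul, ← mul_assoc, h, mul_assoc, ih, mul_assoc]

theorem rest_comm (hap : Apart v w) (hμ : M.mem μ) (T : Tree M) (k : ℕ) :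
    Commute (tau (simpleBis hap hμ)) (rotTo (restNF T v w hμ) k) := by
  induction k with
  | zero => exact Commute.one_right _
  | succ k ih =>
    refine Commute.mul_right (tau_comm _ _ (Set.disjoint_left.2 fun z hz hz' => ?_)) ih
    obtain ⟨u, c, x', hu, hx', rfl⟩ := mem_supp_level hz'
    obtain ⟨hns, -, hv, hw⟩ := mem_restNF.1 hx'
    have key : ∀ (v' : List Bool) (s : Set X), Idem M s → ∀ x, x ∈ s →
        H.pre (u ++ [c, !c]) x' = H.pre v' x →
        (v' <+: u ∧ x' ∈ s) ∨ (u <+: v' ∧ u ≠ v') := by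
      intro v' s hs x hx e
      by_cases hl : v'.length ≤ u.length
      · obtain ⟨r, e1, rfl⟩ := pre_eq_prefix (by simp; omega) e.symm
        have h1 : v' <+: u ++ [c, !c] := by rw [e1]; exact List.prefix_append _ _
        exact Or.inl ⟨List.prefix_of_prefix_length_le h1
          (List.prefix_append _ _) hl, (idem_pre hs r x').1 hx⟩
      · refine Or.inr ⟨?_, fun h => hl (by rw [h])⟩
        rcases le_total v'.length (u ++ [c, !c]).length with hl' | hl'
        · obtain ⟨r, e1, -⟩ := pre_eq_prefix hl' e.symm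
          have h1 : v' <+: u ++ [c, !c] := by rw [e1]; exact List.prefix_append _ _
          exact List.prefix_of_prefix_length_le (List.prefix_append _ _) h1 (by omega)
        · obtain ⟨r, e1, -⟩ := pre_eq_prefix hl' e
          rw [e1]
          exact (List.prefix_append u [c, !c]).trans (List.prefix_append _ _)
    rcases supp_piece hz with ⟨x, hx, e⟩ | ⟨y, hy, e⟩
    · rcases key v _ (idem_gdom hμ) x hx e with ⟨h1, h2⟩ | h
      · exact hv h1 h2
      · exact hns (Or.inl h)
    · rcases key w _ (idem_gran hμ) y hy e with ⟨h1, h2⟩ | h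
      · exact hw h1 h2
      · exact hns (Or.inr h)

theorem top_conj (hap : Apart v w) (hμ : M.mem μ) {N : ℕ} (hN : v.length + w.length ≤ N) :
    rotTo (topNF (M := M) v w) N * dbl M (tau (simpleBis hap hμ)) =
      tau (simpleBis hap hμ) * rotTo (topNF v w) N := by
  have hpt : ∀ t, (t = v ∨ t = w) → ∀ c x,
      schemaHom M (rotTo (topNF (M := M) v w) N) (H.pre (c :: t) x) = H.pre (t ++ [c]) x := by
    intro t ht c x
    refine rotTo_leaf _ t c x (fun u hu hne => mem_topNF.2 ?_) (fun r hr => ?_) ?_
    · rcases ht with rfl | rfl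
      · exact Or.inl ⟨hu, hne⟩
      · exact Or.inr ⟨hu, hne⟩
    · rcases ht with rfl | rfl
      · exact not_strict hap (List.prefix_append _ _) (mem_topNF.1 hr)
      · exact not_strict' hap (List.prefix_append _ _) (mem_topNF.1 hr)
    · rcases ht with rfl | rfl <;> omega
  have himg : ∀ c : Bool, rotTo (topNF (M := M) v w) N *
      endo M [c] (tau (simpleBis hap hμ)) * (rotTo (topNF (M := M) v w) N)⁻¹ =
      tau (simpleBis (hap.append [c] [c]) hμ) := by
    intro c
    rw [endo_tau]
    refine tau_conj _ _ _ ?_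
    simp only [preBis, simpleBis, piece, Set.image_image]
    refine Set.image_congr ?_
    rintro ⟨x, y⟩ -
    rw [← pre_append, ← pre_append]
    exact Prod.ext (hpt v (Or.inl rfl) c x).symm (hpt w (Or.inr rfl) c y).symm
  have e := tau_split hap hμ
  rw [← himg false, ← himg true] at e
  rw [← mul_inv_eq_iff_eq_mul]
  refine Eq.trans ?_ e
  show _ * (endo M [false] _ * endo M [true] _) * _ = _
  group

theorem push_simple (hap : Apart v w) (hμ : M.mem μ) : Push (tau (simpleBis hap hμ)) := by
  intro m
  refine ⟨m + v.length + w.length, fun T hT => ?_⟩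
  let a : NF M :=
    ⟨fun r => T.F.1 (v ++ r) ∩ gdom μ, fun r => idem_inter (T.F.2 _) (idem_gdom hμ)⟩
  let a' : NF M :=
    ⟨fun r => {y | ∃ x ∈ T.F.1 (v ++ r), (x, y) ∈ μ}, fun r => idem_image hμ (T.F.2 _)⟩
  let b : NF M :=
    ⟨fun r => T.F.1 (w ++ r) ∩ gran μ, fun r => idem_inter (T.F.2 _) (idem_gran hμ)⟩
  let b' : NF M :=
    ⟨fun r => {x | ∃ y ∈ T.F.1 (w ++ r), (y, x) ∈ ginv μ},
      fun r => idem_image (M.inv_mem _ hμ) (T.F.2 _)⟩
  let R := restNF T v w hμ
  let G : NF M := topNF v w
  let K := T.bound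
  let N := K + v.length + w.length
  have hsep1 : Sep ((shiftNF v a).union ((shiftNF w b).union R)) G := by
    intro u r x hx hg
    have hs : Strict v w u := (mem_topNF.1 hg).up
    rcases hx with ⟨q, rfl, -⟩ | ⟨q, rfl, -⟩ | h
    · exact not_strict hap (List.prefix_append _ _) hs
    · exact not_strict' hap (List.prefix_append _ _) hs
    · exact (mem_restNF.1 h).1 hs
  have hsep1' : Sep ((shiftNF w a').union ((shiftNF v b').union R)) G := by
    intro u r x hx hg
    have hs : Strict v w u := (mem_topNF.1 hg).up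
    rcases hx with ⟨q, rfl, -⟩ | ⟨q, rfl, -⟩ | h
    · exact not_strict' hap (List.prefix_append _ _) hs
    · exact not_strict hap (List.prefix_append _ _) hs
    · exact (mem_restNF.1 h).1 hs
  have hsep2 : Sep (shiftNF v a) ((shiftNF w b).union R) := by
    rintro u r x ⟨q, rfl, hq⟩ (⟨q', e, -⟩ | h)
    · exact hap.not_both ((List.prefix_append v q).trans (List.prefix_append _ r))
        (e ▸ List.prefix_append _ _)
    · exact (mem_restNF.1 h).2.2.1 ((List.prefix_append v q).trans (List.prefix_append _ r)) hq.2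
  have hsep2' : Sep (shiftNF w a') ((shiftNF v b').union R) := by
    rintro u r y ⟨q, rfl, x, -, hxy⟩ (⟨q', e, -⟩ | h)
    · exact hap.not_both (e ▸ List.prefix_append _ _)
        ((List.prefix_append w q).trans (List.prefix_append _ r))
    · exact (mem_restNF.1 h).2.2.2 ((List.prefix_append w q).trans (List.prefix_append _ r))
        ⟨x, hxy⟩
  have hsep3 : Sep (shiftNF w b) R := by
    rintro u r x ⟨q, rfl, hq⟩ h
    exact (mem_restNF.1 h).2.2.2 ((List.prefix_append w q).trans (List.prefix_append _ r)) hq.2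
  have hsep3' : Sep (shiftNF v b') R := by
    rintro u r x ⟨q, rfl, y, -, hxy⟩ h
    exact (mem_restNF.1 h).2.2.1 ((List.prefix_append v q).trans (List.prefix_append _ r))
      ⟨y, hxy⟩
  have hdec : rotTo T.F N =
      rotTo (shiftNF v a) N * (rotTo (shiftNF w b) N * rotTo R N) * rotTo G N := by
    rw [← rot_union hsep3, ← rot_union hsep2, ← rot_union hsep1]
    refine rot_congr fun u _ => Set.ext fun x => ?_
    constructor
    · intro hx
      by_cases hs : Strict v w u
      · exact Or.inr (mem_topNF.2 hs)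
      · left
        by_cases hv : v <+: u ∧ x ∈ gdom μ
        · obtain ⟨⟨q, rfl⟩, hd⟩ := hv
          exact Or.inl ⟨q, rfl, hx, hd⟩
        · by_cases hw : w <+: u ∧ x ∈ gran μ
          · obtain ⟨⟨q, rfl⟩, hd⟩ := hw
            exact Or.inr (Or.inl ⟨q, rfl, hx, hd⟩)
          · exact Or.inr (Or.inr (mem_restNF.2
              ⟨hs, hx, fun h h' => hv ⟨h, h'⟩, fun h h' => hw ⟨h, h'⟩⟩))
    · rintro ((⟨q, rfl, hx, -⟩ | ⟨q, rfl, hx, -⟩ | h) | h)
      · exact hx
      · exact hx
      · exact (mem_restNF.1 h).2.1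
      · rw [hT u (by have := (mem_topNF.1 h).lt; omega)]
        trivial
  have hstab : ∀ (t : List Bool) (f : NF M), t.length ≤ v.length + w.length →
      (∀ r : List Bool, K ≤ r.length → f.1 r = ∅) →
      rotTo (shiftNF t f) N = endo M t (rotTo f K) := by
    intro t f ht hf
    rw [← rot_shift]
    refine rot_stable (fun u hu => ?_) (by omega)
    ext x
    simp only [Set.mem_empty_iff_false, iff_false]
    rintro ⟨q, rfl, hq⟩
    rw [hf q (by simp only [List.length_append] at hu; omega)] at hq
    exact hq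
  have hTv : ∀ (t r : List Bool), K ≤ r.length → T.F.1 (t ++ r) = ∅ := fun t r hr =>
    T.vanish _ (by simp only [List.length_append]; omega)
  have hA := hstab v a (by omega) fun r hr => by simp [a, hTv v r hr]
  have hB := hstab w b (by omega) fun r hr => by simp [b, hTv w r hr]
  have hA' := hstab w a' (by omega) fun r hr => by simp [a', hTv v r hr]
  have hB' := hstab v b' (by omega) fun r hr => by simp [b', hTv w r hr]
  have htA := shift_transfer hap hμ a a' (fun r x hx => hx.2) (fun r y =>
    ⟨fun ⟨x, hx, hxy⟩ => ⟨x, ⟨hx, y, hxy⟩, hxy⟩, fun ⟨x, hx, hxy⟩ => ⟨x, hx.1, hxy⟩⟩) K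
  have hswap : tau (simpleBis hap hμ) = tau (simpleBis hap.symm (M.inv_mem _ hμ)) :=
    tau_ginv _ _ (by simp only [simpleBis, ginv_piece])
  have htB := shift_transfer hap.symm (M.inv_mem _ hμ) b b' (fun r x hx => hx.2) (fun r y =>
    ⟨fun ⟨x, hx, hxy⟩ => ⟨x, ⟨hx, y, hxy⟩, hxy⟩, fun ⟨x, hx, hxy⟩ => ⟨x, hx.1, hxy⟩⟩) K
  rw [← hswap] at htB
  let T' : Tree M :=
    { F := ((shiftNF w a').union ((shiftNF v b').union R)).union G
      bound := N
      mono := by
        intro u c x hx
        by_cases hs : Strict v w u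
        · exact Or.inr (mem_topNF.2 hs)
        have hchild : ∀ t, (t = v ∨ t = w) → t <+: u ++ [c] → t <+: u := by
          intro t ht htu
          rcases List.prefix_concat_iff.1 htu with rfl | h
          · refine absurd ?_ hs
            rcases ht with ht | ht
            · exact Or.inl ⟨ht ▸ List.prefix_append _ _, fun e => by simp [← ht] at e⟩
            · exact Or.inr ⟨ht ▸ List.prefix_append _ _, fun e => by simp [← ht] at e⟩
          · exact h
        rcases hx with (⟨q, e, y, hy, hxy⟩ | ⟨q, e, y, hy, hxy⟩ | h) | h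
        · obtain ⟨q₀, rfl⟩ := hchild w (Or.inr rfl) (e ▸ List.prefix_append _ _)
          rw [List.append_assoc, List.append_cancel_left_eq] at e
          subst e
          rw [← List.append_assoc] at hy
          exact Or.inl (Or.inl ⟨q₀, rfl, y, T.mono _ c hy, hxy⟩)
        · obtain ⟨q₀, rfl⟩ := hchild v (Or.inl rfl) (e ▸ List.prefix_append _ _)
          rw [List.append_assoc, List.append_cancel_left_eq] at e
          subst e
          rw [← List.append_assoc] at hy
          exact Or.inl (Or.inr (Or.inl ⟨q₀, rfl, y, T.mono _ c hy, hxy⟩))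
        · obtain ⟨-, hx, h1, h2⟩ := mem_restNF.1 h
          exact Or.inl (Or.inr (Or.inr (mem_restNF.2 ⟨hs, T.mono u c hx,
            fun h => h1 (h.trans (List.prefix_append _ _)),
            fun h => h2 (h.trans (List.prefix_append _ _))⟩)))
        · exact absurd (mem_topNF.1 h).up hs
      vanish := by
        intro u hu
        ext x
        simp only [Set.mem_empty_iff_false, iff_false]
        rintro ((⟨q, rfl, y, hy, -⟩ | ⟨q, rfl, y, hy, -⟩ | h) | h)
        · rw [hTv v q (by simp only [List.length_append] at hu; omega)] at hy; exact hy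
        · rw [hTv w q (by simp only [List.length_append] at hu; omega)] at hy; exact hy
        · obtain ⟨-, hx, -⟩ := mem_restNF.1 h
          rw [T.vanish u (by omega)] at hx
          exact hx
        · have := (mem_topNF.1 h).lt
          omega }
  refine ⟨T', fun u hu => Set.eq_univ_of_forall fun x => ?_, ?_⟩
  · by_cases hs : Strict v w u
    · exact Or.inr (mem_topNF.2 hs)
    by_cases hv : v <+: u ∧ x ∈ gdom μ
    · obtain ⟨⟨q, rfl⟩, y, hxy⟩ := hv
      refine Or.inl (Or.inr (Or.inl ⟨q, rfl, y, ?_, hxy⟩))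
      rw [hT _ (by simp only [List.length_append] at hu ⊢; omega)]
      trivial
    by_cases hw : w <+: u ∧ x ∈ gran μ
    · obtain ⟨⟨q, rfl⟩, y, hxy⟩ := hw
      refine Or.inl (Or.inl ⟨q, rfl, y, ?_, hxy⟩)
      rw [hT _ (by simp only [List.length_append] at hu ⊢; omega)]
      trivial
    refine Or.inl (Or.inr (Or.inr (mem_restNF.2
      ⟨hs, ?_, fun h h' => hv ⟨h, h'⟩, fun h h' => hw ⟨h, h'⟩⟩)))
    rw [hT _ (by omega)]
    trivial
  · show tau (simpleBis hap hμ) * T.rot = rotTo T'.F N * dbl M (tau (simpleBis hap hμ))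
    rw [← T.rot_eq (show T.bound ≤ N by omega), hdec]
    show _ = rotTo (((shiftNF w a').union ((shiftNF v b').union R)).union G) N * _
    rw [rot_union hsep1', rot_union hsep2', rot_union hsep3', hA, hB, hA', hB',
      mul_assoc _ (rotTo G N), top_conj hap hμ (show v.length + w.length ≤ N by omega)]
    generalize rotTo G N = γ
    rw [← mul_assoc (tau _) (endo M v (rotTo a K) * _) γ, ← mul_assoc (tau _) (endo M v (rotTo a K)),
      htA, mul_assoc _ (tau _), ← mul_assoc (tau _) (endo M w (rotTo b K)), htB,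
      mul_assoc _ (tau _), (rest_comm hap hμ T N).eq]
    group
    rfl

theorem push_all (g : SchemaGroup M) : Push g := by
  have hg : g ∈ Subgroup.closure (simples M) := by rw [closure_simples]; trivial
  suffices h : Push g ∧ Push g⁻¹ from h.1
  induction hg using Subgroup.closure_induction with
  | mem x hx =>
    obtain ⟨c, v, w, m, hm, rfl⟩ := hx
    exact ⟨push_simple _ hm, by rw [tau_inv]; exact push_simple _ hm⟩
  | one => exact ⟨push_one, by rw [inv_one]; exact push_one⟩
  | mul x y _ _ hx hy =>
    exact ⟨push_mul hx.1 hy.1, by rw [mul_inv_rev]; exact push_mul hy.2 hx.2⟩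
  | inv x _ hx => exact ⟨hx.2, by rw [inv_inv]; exact hx.1⟩

theorem schemaHom_injective : Function.Injective (schemaHom M) := by
  rw [injective_iff_map_eq_one]
  intro z hz
  have hd : schemaHom M (dbl M z) = 1 := by
    show schemaHom M (endo M [false] z * endo M [true] z) = 1
    rw [map_mul, endo_ker hz, endo_ker hz, one_mul]
  obtain ⟨n, hn⟩ := push_all z 0
  obtain ⟨T', -, e⟩ := hn (fullTree M n) (fullTree_full n)
  have hrot : (fullTree M n).rot = T'.rot := by
    refine Tree.rot_eq_of_apply ?_
    have := congrArg (schemaHom M) e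
    simpa [hz, hd] using this
  rw [← hrot, (ker_central hz _).eq] at e
  have hz2 : z = endo M [false] z * endo M [false] z := by
    conv_rhs => arg 2; rw [endo_ker_eq hz incomp_bits]
    exact mul_left_cancel e
  have h00 : endo M [false] (endo M [false] z) = endo M [false] z := by
    rw [endo_endo, List.singleton_append,
      endo_ker_eq hz (p := [false, false]) (q := [true]) (incomp_cons (by decide) [false] []),
      endo_ker_eq hz (p := [true]) (q := [false]) incomp_bits.symm]
  have h1 : endo M [false] z = endo M [false] z * endo M [false] z := by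
    conv_lhs => rw [hz2]
    rw [map_mul, h00]
  rw [hz2, mul_eq_left.1 h1.symm, one_mul]

end Vale.Agent.P193
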