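import Vale.Agent.P193.Full.Inj.Schema

/-! Rotations along trees of prefixes. -/

open Classical

noncomputable section

namespace Vale.Agent.P193

universe u

variable {X : Type u} {H : Halving X} {M : Coeff H}

/-- An idempotent at every node. -/
abbrev NF (M : Coeff H) := {F : List Bool → Set X // ∀ u, Idem M (F u)}

/-- Union of node functions. -/
def NF.union (F G : NF M) : NF M := ⟨fun u => F.1 u ∪ G.1 u, fun u => idem_union (F.2 u) (G.2 u)⟩

/-- The swaps at the nodes of depth `k`. -/
def levelSet (F : NF M) (k : ℕ) : Set (X × X) :=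
  unionOf H ((words k).map fun u => (u ++ [false, true], u ++ [true, false], gid (F.1 u)))

theorem mem_levelSet {F : NF M} {k : ℕ} {p : X × X} : p ∈ levelSet F k ↔
    ∃ u x, u.length = k ∧ x ∈ F.1 u ∧
      p = (H.pre (u ++ [false, true]) x, H.pre (u ++ [true, false]) x) := by
  simp only [levelSet, unionOf, List.mem_map, exists_exists_and_eq_and, mem_words,
    Set.mem_ofPred_eq, mem_piece, mem_gid]
  constructor
  · rintro ⟨u, hu, x, y, ⟨rfl, hx⟩, e⟩; exact ⟨u, x, hu, hx, e⟩
  · rintro ⟨u, x, hu, hx, e⟩; exact ⟨u, hu, x, x, ⟨rfl, hx⟩, e⟩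

theorem node_inj {u u' : List Bool} {x x' : X} {c c' : Bool} (hl : u.length = u'.length)
    (e : H.pre (u ++ [c, !c]) x = H.pre (u' ++ [c', !c']) x') : u = u' ∧ c = c' ∧ x = x' := by
  obtain ⟨e1, e2⟩ := pre_inj_len (by simp [hl]) e
  obtain ⟨a, b⟩ := List.append_inj e1 hl
  exact ⟨a, (List.cons.inj b).1, e2⟩

theorem isBis_levelSet (F : NF M) (k : ℕ) : IsBis M (levelSet F k) := by
  refine isBis_iff.2 ⟨⟨?_, ?_⟩, ?_, ?_⟩
  · intro x y z h h'
    obtain ⟨u, a, hu, -, e⟩ := mem_levelSet.1 h
    obtain ⟨u', a', hu', -, e'⟩ := mem_levelSet.1 h'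
    simp only [Prod.mk.injEq] at e e'
    obtain ⟨rfl, -, rfl⟩ := node_inj (c := false) (c' := false) (hu.trans hu'.symm)
      (e.1.symm.trans e'.1)
    rw [e.2, e'.2]
  · intro x y z h h'
    obtain ⟨u, a, hu, -, e⟩ := mem_levelSet.1 h
    obtain ⟨u', a', hu', -, e'⟩ := mem_levelSet.1 h'
    simp only [Prod.mk.injEq] at e e'
    obtain ⟨rfl, -, rfl⟩ := node_inj (c := true) (c' := true) (hu.trans hu'.symm)
      (e.2.symm.trans e'.2)
    rw [e.1, e'.1]
  · rw [Set.disjoint_left]
    rintro x ⟨y, h⟩ ⟨y', h'⟩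
    obtain ⟨u, a, hu, -, e⟩ := mem_levelSet.1 h
    obtain ⟨u', a', hu', -, e'⟩ := mem_levelSet.1 h'
    simp only [Prod.mk.injEq] at e e'
    have := (node_inj (c := false) (c' := true) (hu.trans hu'.symm) (e.1.symm.trans e'.2)).2.1
    exact Bool.false_ne_true this
  · refine ⟨_, ?_, rfl⟩
    intro t ht
    obtain ⟨u, -, rfl⟩ := List.mem_map.1 ht
    exact F.2 u

/-- The bisection of one level. -/
def levelBis (F : NF M) (k : ℕ) : Bis M := ⟨levelSet F k, isBis_levelSet F k⟩

/-- The rotation at one level. -/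
def level (F : NF M) (k : ℕ) : SchemaGroup M := tau (levelBis F k)

/-- The rotation above depth `k`. -/
def rotTo (F : NF M) : ℕ → SchemaGroup M
  | 0 => 1
  | k + 1 => level F k * rotTo F k

theorem mem_supp_level {F : NF M} {k : ℕ} {z : X} (h : z ∈ supp (levelSet F k)) :
    ∃ u c x, u.length = k ∧ x ∈ F.1 u ∧ z = H.pre (u ++ [c, !c]) x := by
  rcases h with ⟨y, h⟩ | ⟨y, h⟩ <;> obtain ⟨u, x, hu, hx, e⟩ := mem_levelSet.1 h <;>
    simp only [Prod.mk.injEq] at e
  · exact ⟨u, false, x, hu, hx, e.1⟩
  · exact ⟨u, true, x, hu, hx, e.2⟩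

theorem level_swap {F : NF M} {u : List Bool} {x : X} (hx : x ∈ F.1 u) (c : Bool) :
    swapPerm (levelBis F u.length) (H.pre (u ++ [c, !c]) x) = H.pre (u ++ [!c, c]) x := by
  have h : (H.pre (u ++ [false, true]) x, H.pre (u ++ [true, false]) x) ∈ levelSet F u.length :=
    mem_levelSet.2 ⟨u, x, rfl, hx, rfl⟩
  cases c
  · exact swap_fwd (levelBis F _) h
  · exact swap_bwd (levelBis F _) h

theorem level_union (F G : NF M) (k : ℕ) (h : ∀ u x, x ∈ F.1 u → x ∉ G.1 u) :
    level (F.union G) k = level F k * level G k := by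
  refine (tau_add _ _ _ ?_ ?_).symm
  · rw [Set.disjoint_left]
    intro z hz hz'
    obtain ⟨u, c, x, hu, hx, rfl⟩ := mem_supp_level hz
    obtain ⟨u', c', x', hu', hx', e⟩ := mem_supp_level hz'
    obtain ⟨rfl, -, rfl⟩ := node_inj (hu.trans hu'.symm) e
    exact h u x hx hx'
  · ext p
    simp only [levelBis, Set.mem_union, mem_levelSet, NF.union]
    constructor
    · rintro ⟨u, x, hu, hx | hx, e⟩
      · exact Or.inl ⟨u, x, hu, hx, e⟩
      · exact Or.inr ⟨u, x, hu, hx, e⟩
    · rintro (⟨u, x, hu, hx, e⟩ | ⟨u, x, hu, hx, e⟩)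
      · exact ⟨u, x, hu, Or.inl hx, e⟩
      · exact ⟨u, x, hu, Or.inr hx, e⟩

/-- `F` is apart from `G` at and below each of its nodes. -/
def Sep (F G : NF M) : Prop := ∀ u r x, x ∈ F.1 u → x ∉ G.1 (u ++ r)

theorem level_comm {F G : NF M} (h : Sep F G) {j k : ℕ} (hjk : j < k) :
    Commute (level F j) (level G k) := by
  refine tau_comm _ _ (Set.disjoint_left.2 fun z hz hz' => ?_)
  obtain ⟨u, c, x, hu, hx, rfl⟩ := mem_supp_level hz
  obtain ⟨u', c', x', hu', hx', e⟩ := mem_supp_level hz'
  obtain ⟨r, e1, rfl⟩ := pre_eq_prefix (by simp [hu, hu']; omega) e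
  have hu1 : u <+: u' ++ [c', !c'] := e1 ▸ ⟨[c, !c] ++ r, by simp⟩
  obtain ⟨s, rfl⟩ := List.prefix_of_prefix_length_le hu1 (List.prefix_append _ _) (by omega)
  exact h u s x' ((idem_pre (F.2 u) r x').1 hx) hx'

theorem rot_level_comm {F G : NF M} (h : Sep F G) {j k : ℕ} (hjk : j ≤ k) :
    Commute (rotTo F j) (level G k) := by
  induction j with
  | zero => exact Commute.one_left _
  | succ j ih => exact (level_comm h (Nat.lt_of_succ_le hjk)).mul_left (ih (by omega))

theorem rot_union {F G : NF M} (h : Sep F G) (k : ℕ) :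
    rotTo (F.union G) k = rotTo F k * rotTo G k := by
  induction k with
  | zero => simp [rotTo]
  | succ k ih =>
    have hl := level_union F G k fun u x hx => by simpa using h u [] x hx
    simp only [rotTo, hl, ih]
    rw [mul_assoc, ← mul_assoc (level G k), ← (rot_level_comm h le_rfl).eq]
    group

theorem rot_congr {F G : NF M} {n : ℕ} (h : ∀ u : List Bool, u.length < n → F.1 u = G.1 u) :
    rotTo F n = rotTo G n := by
  induction n with
  | zero => rfl
  | succ n ih =>
    simp only [rotTo]
    rw [ih fun u hu => h u (by omega)]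
    congr 1
    refine tau_congr ?_
    ext p
    simp only [levelBis, mem_levelSet]
    exact exists_congr fun u => exists_congr fun x =>
      and_congr_right fun hu => by rw [h u (by omega)]

theorem level_empty {F : NF M} {k : ℕ} (h : ∀ u : List Bool, u.length = k → F.1 u = ∅) :
    level F k = 1 := by
  refine tau_empty _ ?_
  ext p
  simp only [levelBis, mem_levelSet, Set.mem_empty_iff_false, iff_false]
  rintro ⟨u, x, hu, hx, -⟩
  rw [h u hu] at hx
  exact hx

theorem rot_stable {F : NF M} {n m : ℕ} (h : ∀ u : List Bool, n ≤ u.length → F.1 u = ∅)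
    (hm : n ≤ m) : rotTo F m = rotTo F n := by
  induction m, hm using Nat.le_induction with
  | base => rfl
  | succ m hm ih => rw [rotTo, level_empty (fun u hu => h u (by omega)), one_mul, ih]

/-- Moving a node function below a prefix. -/
def shiftNF (v : List Bool) (G : NF M) : NF M :=
  ⟨fun u => {x | ∃ r, u = v ++ r ∧ x ∈ G.1 r}, fun u => by
    by_cases h : v <+: u
    · obtain ⟨r, rfl⟩ := h
      convert G.2 r using 1
      ext x
      simp
    · convert idem_empty (M := M)
      ext x
      simp only [Set.mem_ofPred_eq, Set.mem_empty_iff_false, iff_false]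
      rintro ⟨r, rfl, -⟩
      exact h (List.prefix_append _ _)⟩

theorem shiftNF_append (v r : List Bool) (G : NF M) (x : X) :
    x ∈ (shiftNF v G).1 (v ++ r) ↔ x ∈ G.1 r := by
  simp [shiftNF]

theorem shiftNF_out {v u : List Bool} (G : NF M) (x : X) (h : ¬ v <+: u) :
    x ∉ (shiftNF v G).1 u :=
  fun ⟨_, e, _⟩ => h (e ▸ List.prefix_append _ _)

theorem level_shift (v : List Bool) (G : NF M) (k : ℕ) :
    level (shiftNF v G) (v.length + k) = endo M v (level G k) := by
  rw [level, level, endo_tau]
  refine tau_congr ?_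
  ext p
  simp only [levelBis, preBis, mem_levelSet, mem_piece]
  constructor
  · rintro ⟨u, x, hu, ⟨r, rfl, hx⟩, rfl⟩
    simp only [List.length_append] at hu
    exact ⟨_, _, ⟨r, x, by omega, hx, rfl⟩, by simp only [List.append_assoc, pre_append]⟩
  · rintro ⟨a, b, ⟨r, x, hr, hx, e⟩, rfl⟩
    simp only [Prod.mk.injEq] at e
    refine ⟨v ++ r, x, by simp [hr], ⟨r, rfl, hx⟩, ?_⟩
    simp only [e.1, e.2, List.append_assoc, pre_append]

theorem rot_shift (v : List Bool) (G : NF M) (k : ℕ) :
    rotTo (shiftNF v G) (v.length + k) = endo M v (rotTo G k) := by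
  induction k with
  | zero =>
    simp only [rotTo, map_one, Nat.add_zero]
    suffices h : ∀ j, j ≤ v.length → rotTo (shiftNF v G) j = 1 from h _ le_rfl
    intro j hj
    induction j with
    | zero => rfl
    | succ j ih =>
      rw [rotTo, ih (by omega), mul_one, level_empty]
      intro u hu
      ext x
      simp only [Set.mem_empty_iff_false, iff_false]
      exact shiftNF_out G x fun h => by have := h.length_le; omega
  | succ k ih =>
    show level (shiftNF v G) (v.length + k) * rotTo (shiftNF v G) (v.length + k) = _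
    rw [level_shift, ih, ← map_mul]
    rfl

/-! ### Trees -/

/-- A finite tree in each point. -/
structure Tree (M : Coeff H) where
  F : NF M
  bound : ℕ
  mono : ∀ u c, F.1 (u ++ [c]) ⊆ F.1 u
  vanish : ∀ u : List Bool, bound ≤ u.length → F.1 u = ∅

/-- The rotation of a tree. -/
def Tree.rot (T : Tree M) : SchemaGroup M := rotTo T.F T.bound

theorem Tree.rot_eq (T : Tree M) {n : ℕ} (h : T.bound ≤ n) : rotTo T.F n = T.rot :=
  rot_stable T.vanish h

/-- The tree contains all nodes shorter than `m`. -/
def Tree.Full (T : Tree M) (m : ℕ) : Prop := ∀ u : List Bool, u.length < m → T.F.1 u = Set.univ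

theorem Tree.mono_append (T : Tree M) (u r : List Bool) : T.F.1 (u ++ r) ⊆ T.F.1 u := by
  induction r using List.reverseRecOn with
  | nil => simp
  | append_singleton r c ih =>
    rw [← List.append_assoc]
    exact (T.mono _ c).trans ih

variable (M) in
/-- The full tree of depth `n`. -/
def fullTree (n : ℕ) : Tree M where
  F := ⟨fun u => if u.length < n then Set.univ else ∅, fun u => by
    dsimp only
    split_ifs
    · exact idem_univ
    · exact idem_empty⟩
  bound := n
  mono u c := by
    intro x hx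
    simp only [List.length_append, List.length_singleton] at hx
    split_ifs at hx with h
    · simp only [if_pos (show u.length < n by omega), Set.mem_univ]
    · exact hx.elim
  vanish u h := if_neg (by omega)

theorem fullTree_full (n : ℕ) : (fullTree M n).Full n := fun _ h => if_pos h

/-! ### Action on points -/

theorem rotTo_apply (F : NF M) (v : List Bool) : ∀ (c : Bool) (x : X),
    (∀ u, u <+: v → u ≠ v → x ∈ F.1 u) →
      schemaHom M (rotTo F v.length) (H.pre (c :: v) x) = H.pre (v ++ [c]) x := by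
  induction v using List.reverseRecOn with
  | nil => intro c x _; simp [rotTo]
  | append_singleton v d ih =>
    intro c x h
    have hv : x ∈ F.1 v := h v (List.prefix_append _ _) (by simp)
    rw [List.length_append, List.length_singleton, rotTo, map_mul, Equiv.Perm.mul_apply,
      ← List.cons_append, pre_append (c :: v) [d], ih c _ fun u hu hne =>
        (idem_pre (F.2 u) _ _).2 (h u (hu.trans (List.prefix_append _ _)) fun e => by
          have h1 := hu.length_le; subst e; simp at h1),
      ← pre_append, level, schemaHom_tau]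
    simp only [List.append_assoc, List.singleton_append]
    by_cases hcd : c = d
    · subst hcd
      refine swap_fix _ fun hs => ?_
      obtain ⟨u, e, y, hu, -, he⟩ := mem_supp_level hs
      obtain ⟨e1, -⟩ := pre_inj_len (by simp [hu]) he
      obtain ⟨-, e2⟩ := List.append_inj e1 hu.symm
      cases e <;> cases c <;> simp at e2
    · obtain rfl : d = !c := by cases c <;> cases d <;> simp_all
      exact level_swap hv c

theorem rotTo_leaf (F : NF M) (v : List Bool) (c : Bool) (x : X)
    (hin : ∀ u, u <+: v → u ≠ v → x ∈ F.1 u) (hout : ∀ r, x ∉ F.1 (v ++ r))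
    {k : ℕ} (hk : v.length ≤ k) :
    schemaHom M (rotTo F k) (H.pre (c :: v) x) = H.pre (v ++ [c]) x := by
  induction k, hk using Nat.le_induction with
  | base => exact rotTo_apply F v c x hin
  | succ k hk ih =>
    rw [rotTo, map_mul, Equiv.Perm.mul_apply, ih, level, schemaHom_tau]
    refine swap_fix _ fun hs => ?_
    obtain ⟨u, e, y, hu, hy, he⟩ := mem_supp_level hs
    obtain ⟨r, e1, rfl⟩ := pre_eq_prefix (by simp [hu]; omega) he
    have hv1 : v <+: u ++ [e, !e] := e1 ▸ ⟨[c] ++ r, by simp⟩
    obtain ⟨s, rfl⟩ := List.prefix_of_prefix_length_le hv1 (List.prefix_append _ _) (by omega)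
    exact hout s ((idem_pre (F.2 _) r y).2 hy)

theorem Tree.rot_leaf (T : Tree M) {v : List Bool} (c : Bool) {x : X}
    (hin : ∀ u, u <+: v → u ≠ v → x ∈ T.F.1 u) (hout : x ∉ T.F.1 v) :
    schemaHom M T.rot (H.pre (c :: v) x) = H.pre (v ++ [c]) x := by
  have hk : v.length ≤ T.bound := by
    by_contra hlt
    have := hin (v.take T.bound) (List.take_prefix _ _) fun e => by
      have := congrArg List.length e
      simp at this
      omega
    rw [T.vanish _ (by simp; omega)] at this
    exact this
  exact rotTo_leaf T.F v c x hin (fun r h => hout (T.mono_append v r h)) hk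

theorem Tree.exists_leaf (T : Tree M) {x : X} {u : List Bool} (h : x ∉ T.F.1 u) :
    ∃ v, v <+: u ∧ x ∉ T.F.1 v ∧ ∀ w, w <+: v → w ≠ v → x ∈ T.F.1 w := by
  induction u using List.reverseRecOn with
  | nil => exact ⟨[], List.prefix_refl _, h, fun w hw hne => absurd (List.prefix_nil.1 hw) hne⟩
  | append_singleton u c ih =>
    by_cases hu : x ∈ T.F.1 u
    · refine ⟨u ++ [c], List.prefix_refl _, h, fun w hw hne => ?_⟩
      obtain ⟨s, rfl⟩ := ((List.prefix_concat_iff).1 hw).resolve_left hne
      exact T.mono_append w s hu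
    · obtain ⟨v, h1, h2⟩ := ih hu
      exact ⟨v, h1.trans (List.prefix_append _ _), h2⟩

theorem Tree.not_mem_of_apply {T T' : Tree M} (he : schemaHom M T.rot = schemaHom M T'.rot)
    {u : List Bool} {x : X} (hx : x ∈ T.F.1 u) : x ∈ T'.F.1 u := by
  by_contra hx'
  obtain ⟨v, ⟨s, rfl⟩, hv, hvin⟩ := T'.exists_leaf hx'
  have hxv : x ∈ T.F.1 v := T.mono_append v s hx
  have hex : ∃ j, x ∉ T.F.1 (v ++ List.replicate j false) :=
    ⟨T.bound, by rw [T.vanish _ (by simp)]; exact Set.notMem_empty x⟩
  obtain ⟨i, hi⟩ : ∃ i, Nat.find hex = i + 1 := by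
    refine ⟨Nat.find hex - 1, ?_⟩
    have : Nat.find hex ≠ 0 := fun h0 => Nat.find_spec hex (by rw [h0]; simpa using hxv)
    omega
  have h1 := T.rot_leaf true (v := v ++ List.replicate (i + 1) false) (x := x) (fun w hw hne => by
    by_cases hl : w.length ≤ v.length
    · obtain ⟨t, rfl⟩ := List.prefix_of_prefix_length_le hw (List.prefix_append _ _) hl
      exact T.mono_append w t hxv
    · obtain ⟨t, rfl⟩ := List.prefix_of_prefix_length_le (List.prefix_append _ _) hw (by omega)
      have ht : t <+: List.replicate (i + 1) false := (List.prefix_append_right_inj _).1 hw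
      obtain ⟨htl, hte⟩ := List.prefix_replicate_iff.1 ht
      have hlt : t.length < i + 1 := lt_of_le_of_ne htl fun e => hne (by rw [hte, e])
      have := Nat.find_min hex (hi ▸ hlt)
      rw [hte]
      simpa using this) (hi ▸ Nat.find_spec hex)
  have h2 := T'.rot_leaf true (v := v) (x := H.pre (List.replicate (i + 1) false) x)
    (fun w hw hne => (idem_pre (T'.F.2 w) _ _).2 (hvin w hw hne))
    (fun h => hv ((idem_pre (T'.F.2 v) _ _).1 h))
  rw [← he, ← pre_append, List.cons_append, h1, ← pre_append, List.append_assoc,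
    List.append_assoc, pre_append] at h2
  rw [pre_append v] at h2
  have h3 := pre_injective v h2
  rw [List.replicate_succ, List.cons_append, List.singleton_append] at h3
  exact Bool.false_ne_true (congrArg Prod.fst (H.cons.injective h3))

theorem Tree.rot_eq_of_apply {T T' : Tree M} (he : schemaHom M T.rot = schemaHom M T'.rot) :
    T.rot = T'.rot := by
  rw [← T.rot_eq (le_max_left T.bound T'.bound), ← T'.rot_eq (le_max_right T.bound T'.bound)]
  exact rot_congr fun u _ =>
    Set.ext fun x => ⟨Tree.not_mem_of_apply he, Tree.not_mem_of_apply he.symm⟩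

end Vale.Agent.P193
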