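import Vale.Agent.P193.Full.Inj.Basic
import Mathlib.GroupTheory.Commutator.Basic
import Mathlib.Algebra.Group.Commute.Basic
import Mathlib.Tactic.Group

/-! The schema group: the canonical homomorphism, conjugation, prefix endomorphisms. -/

open Classical

noncomputable section

namespace Vale.Agent.P193

universe u

variable {X : Type u} {H : Halving X} {M : Coeff H}

/-- The points moved by a bisection. -/
def supp (b : Set (X × X)) : Set X := gdom b ∪ gran b

theorem swap_fwd (b : Bis M) {x y : X} (h : (x, y) ∈ b.1) : swapPerm b x = y := by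
  have hx : ∃ z, (x, z) ∈ b.1 := ⟨y, h⟩
  show swapFun b.1 x = y
  rw [swapFun, dif_pos hx]
  exact b.2.1.1 _ _ _ hx.choose_spec h

theorem swap_invol (b : Bis M) (x : X) : swapPerm b (swapPerm b x) = x :=
  swapFun_invol b.2.1 b.2.2.1 x

theorem swap_bwd (b : Bis M) {x y : X} (h : (x, y) ∈ b.1) : swapPerm b y = x := by
  conv_lhs => rw [← swap_fwd b h]
  exact swap_invol b x

theorem swap_fix (b : Bis M) {x : X} (h : x ∉ supp b.1) : swapPerm b x = x := by
  show swapFun b.1 x = x
  rw [swapFun, dif_neg (fun e : ∃ y, (x, y) ∈ b.1 => h (Or.inl e)),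
    dif_neg (fun e : ∃ y, (y, x) ∈ b.1 => h (Or.inr e))]

theorem swap_inv (b : Bis M) : (swapPerm b)⁻¹ = swapPerm b := rfl

theorem swap_conj (σ : Equiv.Perm X) (b c : Bis M)
    (h : c.1 = (fun p => (σ p.1, σ p.2)) '' b.1) : σ * swapPerm b * σ⁻¹ = swapPerm c := by
  ext x
  obtain ⟨z, rfl⟩ := σ.surjective x
  rw [Equiv.Perm.mul_apply, Equiv.Perm.mul_apply, show σ⁻¹ (σ z) = z from σ.symm_apply_apply z]
  by_cases h1 : z ∈ gdom b.1
  · obtain ⟨y, hy⟩ := h1
    rw [swap_fwd b hy, swap_fwd c (h ▸ ⟨(z, y), hy, rfl⟩ : (σ z, σ y) ∈ c.1)]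
  · by_cases h2 : z ∈ gran b.1
    · obtain ⟨y, hy⟩ := h2
      rw [swap_bwd b hy, swap_bwd c (h ▸ ⟨(y, z), hy, rfl⟩ : (σ y, σ z) ∈ c.1)]
    · rw [swap_fix b (fun e => e.elim h1 h2), swap_fix c]
      rw [h]
      rintro (⟨y, ⟨a, a'⟩, ha, e⟩ | ⟨y, ⟨a, a'⟩, ha, e⟩) <;> simp only [Prod.mk.injEq] at e
      · exact h1 ⟨a', σ.injective e.1 ▸ ha⟩
      · exact h2 ⟨a, σ.injective e.2 ▸ ha⟩

theorem swap_union (a b c : Bis M) (hd : Disjoint (supp a.1) (supp b.1))
    (h : c.1 = a.1 ∪ b.1) : swapPerm a * swapPerm b = swapPerm c := by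
  ext x
  rw [Equiv.Perm.mul_apply]
  by_cases ha : x ∈ supp a.1
  · rw [swap_fix b (Set.disjoint_left.1 hd ha)]
    rcases ha with ⟨y, hy⟩ | ⟨y, hy⟩
    · rw [swap_fwd a hy, swap_fwd c (h ▸ Or.inl hy : (x, y) ∈ c.1)]
    · rw [swap_bwd a hy, swap_bwd c (h ▸ Or.inl hy : (y, x) ∈ c.1)]
  · by_cases hb : x ∈ supp b.1
    · rcases hb with ⟨y, hy⟩ | ⟨y, hy⟩
      · rw [swap_fwd b hy, swap_fwd c (h ▸ Or.inr hy : (x, y) ∈ c.1),
          swap_fix a (Set.disjoint_right.1 hd (Or.inr ⟨x, hy⟩))]
      · rw [swap_bwd b hy, swap_bwd c (h ▸ Or.inr hy : (y, x) ∈ c.1),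
          swap_fix a (Set.disjoint_right.1 hd (Or.inl ⟨x, hy⟩))]
    · rw [swap_fix b hb, swap_fix a ha, swap_fix c]
      rintro (⟨y, hy⟩ | ⟨y, hy⟩) <;> rw [h] at hy <;> rcases hy with hy | hy
      · exact ha (Or.inl ⟨y, hy⟩)
      · exact hb (Or.inl ⟨y, hy⟩)
      · exact ha (Or.inr ⟨y, hy⟩)
      · exact hb (Or.inr ⟨y, hy⟩)

theorem swap_ginv (a b : Bis M) (h : b.1 = ginv a.1) : swapPerm a = swapPerm b := by
  ext x
  by_cases ha : x ∈ supp a.1
  · rcases ha with ⟨y, hy⟩ | ⟨y, hy⟩
    · rw [swap_fwd a hy, swap_bwd b (h ▸ hy : (y, x) ∈ b.1)]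
    · rw [swap_bwd a hy, swap_fwd b (h ▸ hy : (x, y) ∈ b.1)]
  · rw [swap_fix a ha, swap_fix b]
    rw [h]
    exact fun e => ha e.symm

variable (M)

/-- The canonical homomorphism to permutations. -/
def schemaHom : SchemaGroup M →* Equiv.Perm X :=
  PresentedGroup.toGroup (f := swapPerm (M := M)) <| by
    rintro r (⟨a, b, c, hd, hc, rfl⟩ | ⟨a, b, hb, rfl⟩ | ⟨a, b, c, hc, rfl⟩) <;>
      simp only [map_mul, map_inv, FreeGroup.lift_apply_of]
    · rw [swap_union a b c hd hc, mul_inv_cancel]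
    · rw [swap_ginv a b hb, mul_inv_cancel]
    · rw [show swapPerm a * swapPerm b * swapPerm a = swapPerm c from
        swap_conj _ b c hc, mul_inv_cancel]

variable {M}

/-- The generator of a bisection. -/
def tau (b : Bis M) : SchemaGroup M := PresentedGroup.of b

theorem schemaHom_tau (b : Bis M) : schemaHom M (tau b) = swapPerm b :=
  PresentedGroup.toGroup.of _

theorem schemaHom_range : (schemaHom M).range = swapGroup M := by
  rw [MonoidHom.range_eq_map, ← PresentedGroup.closure_range_of (schemaRels M),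
    MonoidHom.map_closure, swapGroup]
  congr 1
  ext σ
  simp only [Set.mem_image, Set.mem_range, exists_exists_eq_and]
  exact exists_congr fun b => by rw [← schemaHom_tau]; rfl

/-- Induction over the schema group. -/
theorem tau_induction {p : SchemaGroup M → Prop} (h1 : p 1) (ht : ∀ b, p (tau b))
    (hm : ∀ g h, p g → p h → p (g * h)) (hi : ∀ g, p g → p g⁻¹) (g : SchemaGroup M) : p g := by
  have hg : g ∈ Subgroup.closure (Set.range (tau (M := M))) := by
    rw [show Set.range (tau (M := M)) = Set.range PresentedGroup.of from rfl,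
      PresentedGroup.closure_range_of]
    trivial
  induction hg using Subgroup.closure_induction with
  | mem x hx => obtain ⟨b, rfl⟩ := hx; exact ht b
  | one => exact h1
  | mul x y _ _ hx hy => exact hm _ _ hx hy
  | inv x _ hx => exact hi _ hx

theorem tau_add (a b c : Bis M) (hd : Disjoint (supp a.1) (supp b.1)) (h : c.1 = a.1 ∪ b.1) :
    tau a * tau b = tau c := by
  have := PresentedGroup.one_of_mem (rels := schemaRels M)
    (x := FreeGroup.of a * FreeGroup.of b * (FreeGroup.of c)⁻¹)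
    (Or.inl ⟨a, b, c, hd, h, rfl⟩)
  rw [map_mul, map_mul, map_inv, mul_inv_eq_one] at this
  exact this

theorem tau_ginv (a b : Bis M) (h : b.1 = ginv a.1) : tau a = tau b := by
  have := PresentedGroup.one_of_mem (rels := schemaRels M)
    (x := FreeGroup.of a * (FreeGroup.of b)⁻¹) (Or.inr (Or.inl ⟨a, b, h, rfl⟩))
  rw [map_mul, map_inv, mul_inv_eq_one] at this
  exact this

theorem tau_conj3 (a b c : Bis M) (h : c.1 = (fun p => (swapPerm a p.1, swapPerm a p.2)) '' b.1) :
    tau a * tau b * tau a = tau c := by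
  have := PresentedGroup.one_of_mem (rels := schemaRels M)
    (x := FreeGroup.of a * FreeGroup.of b * FreeGroup.of a * (FreeGroup.of c)⁻¹)
    (Or.inr (Or.inr ⟨a, b, c, h, rfl⟩))
  rw [map_mul, map_mul, map_mul, map_inv, mul_inv_eq_one] at this
  exact this

theorem tau_congr {a b : Bis M} (h : a.1 = b.1) : tau a = tau b := by rw [Subtype.ext h]

theorem tau_empty (b : Bis M) (h : b.1 = ∅) : tau b = 1 := by
  have := tau_add b b b (by simp [h, supp, gdom, gran]) (by simp)
  simpa using this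

theorem tau_sq (b : Bis M) : tau b * tau b = 1 := by
  have hc : IsBis M (ginv b.1) :=
    isBis_iff.2 ⟨⟨fun x y z h1 h2 => b.2.1.2 _ _ _ h1 h2, fun x y z h1 h2 => b.2.1.1 _ _ _ h1 h2⟩,
      Disjoint.symm b.2.2.1, reg_ginv b.2.2.2⟩
  have h := tau_conj3 b b ⟨_, hc⟩ (by
    ext ⟨x, y⟩
    constructor
    · exact fun h => ⟨(y, x), h, Prod.ext (swap_fwd b h) (swap_bwd b h)⟩
    · rintro ⟨⟨u, v⟩, h, e⟩
      simp only [swap_fwd b h, swap_bwd b h, Prod.mk.injEq] at e
      obtain ⟨rfl, rfl⟩ := e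
      exact h)
  rw [← tau_ginv b ⟨_, hc⟩ rfl] at h
  exact mul_eq_right.1 (by rw [h] : tau b * tau b * tau b = tau b)

theorem tau_inv (b : Bis M) : (tau b)⁻¹ = tau b := inv_eq_of_mul_eq_one_right (tau_sq b)

theorem reg_graph_one : Reg M (graphOf (1 : Equiv.Perm X)) := by
  convert reg_piece (v := []) (w := []) (M.one_mem) using 1
  ext ⟨x, y⟩
  simp only [graphOf, mem_piece, Halving.pre, Equiv.Perm.one_apply, Set.mem_ofPred_eq]
  exact ⟨fun h => ⟨x, y, ⟨h, trivial⟩, rfl⟩, fun ⟨a, b, ⟨h, _⟩, e⟩ => by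
    simp only [Prod.mk.injEq] at e; simp only at h; rw [e.1, e.2, h]⟩

theorem reg_graph_mul {σ π : Equiv.Perm X} (hσ : Reg M (graphOf σ)) (hπ : Reg M (graphOf π)) :
    Reg M (graphOf (σ * π)) := by
  convert reg_gcomp hπ hσ using 1
  ext ⟨x, y⟩
  exact ⟨fun h => ⟨π x, rfl, h⟩, fun ⟨z, h1, h2⟩ => by
    simp only [graphOf, Set.mem_ofPred_eq] at h1 h2 ⊢; rw [Equiv.Perm.mul_apply, h1, h2]⟩

theorem reg_graph_inv {σ : Equiv.Perm X} (hσ : Reg M (graphOf σ)) :
    Reg M (graphOf σ⁻¹) := by
  convert reg_ginv hσ using 1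
  ext ⟨x, y⟩
  simp only [graphOf, ginv, Set.mem_ofPred_eq]
  exact ⟨fun h => by rw [← h]; simp, fun h => by rw [← h]; simp⟩

theorem reg_graph_swap (b : Bis M) : Reg M (graphOf (swapPerm b)) := by
  have hr : Reg M (b.1 ∪ ginv b.1) := reg_union b.2.2.2 (reg_ginv b.2.2.2)
  convert reg_union hr (reg_gid_compl_gdom hr) using 1
  ext ⟨x, y⟩
  constructor
  · intro h
    simp only [graphOf, Set.mem_ofPred_eq] at h
    by_cases hx : x ∈ supp b.1
    · rcases hx with ⟨z, hz⟩ | ⟨z, hz⟩
      · rw [swap_fwd b hz] at h; subst h; exact Or.inl (Or.inl hz)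
      · rw [swap_bwd b hz] at h; subst h; exact Or.inl (Or.inr hz)
    · rw [swap_fix b hx] at h
      refine Or.inr ⟨h, ?_⟩
      rintro ⟨z, hz | hz⟩
      · exact hx (Or.inl ⟨z, hz⟩)
      · exact hx (Or.inr ⟨z, hz⟩)
  · rintro ((h | h) | ⟨h, hx⟩)
    · exact swap_fwd b h
    · exact swap_bwd b h
    · simp only at h hx
      subst h
      exact swap_fix b fun e => e.elim (fun ⟨z, hz⟩ => hx ⟨z, Or.inl hz⟩)
        fun ⟨z, hz⟩ => hx ⟨z, Or.inr hz⟩

theorem reg_graph_hom (g : SchemaGroup M) : Reg M (graphOf (schemaHom M g)) := by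
  induction g using tau_induction with
  | h1 => rw [map_one]; exact reg_graph_one
  | ht b => rw [schemaHom_tau]; exact reg_graph_swap b
  | hm g h hg hh => rw [map_mul]; exact reg_graph_mul hg hh
  | hi g hg => rw [map_inv]; exact reg_graph_inv hg

/-- Conjugation moves generators as it moves bisections. -/
theorem tau_conj (g : SchemaGroup M) : ∀ b c : Bis M,
    c.1 = (fun p => (schemaHom M g p.1, schemaHom M g p.2)) '' b.1 →
      g * tau b * g⁻¹ = tau c := by
  induction g using tau_induction with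
  | h1 => intro b c h; rw [one_mul, inv_one, mul_one]; exact tau_congr (by simp [h])
  | ht a =>
    intro b c h
    rw [tau_inv]
    exact tau_conj3 a b c (by rw [h, schemaHom_tau])
  | hm g k hg hk =>
    intro b c h
    let c' : Bis M := ⟨_, isBis_image (reg_graph_hom k) b.2⟩
    have e : g * k * tau b * (g * k)⁻¹ = g * (k * tau b * k⁻¹) * g⁻¹ := by group
    rw [e, hk b c' rfl, hg c' c]
    rw [h, Set.image_image, map_mul]
    rfl
  | hi g hg =>
    intro b c h
    have e := hg c b (by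
      rw [h, Set.image_image]
      simp only [map_inv, Equiv.Perm.inv_def, Equiv.apply_symm_apply, Prod.mk.eta, Set.image_id'])
    rw [← e]
    group

theorem tau_comm (a b : Bis M) (hd : Disjoint (supp a.1) (supp b.1)) :
    Commute (tau a) (tau b) := by
  have h := tau_conj (tau a) b b (by
    rw [schemaHom_tau]
    conv_lhs => rw [← Set.image_id b.1]
    exact Set.image_congr fun p hp => Prod.ext
      (swap_fix a (Set.disjoint_right.1 hd (Or.inl ⟨p.2, hp⟩))).symm
      (swap_fix a (Set.disjoint_right.1 hd (Or.inr ⟨p.1, hp⟩))).symm)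
  rw [mul_inv_eq_iff_eq_mul] at h
  exact h

theorem ker_central {z : SchemaGroup M} (hz : schemaHom M z = 1) (g : SchemaGroup M) :
    Commute z g := by
  induction g using tau_induction with
  | h1 => exact Commute.one_right z
  | ht b =>
    have h := tau_conj z b b (by simp [hz])
    rw [mul_inv_eq_iff_eq_mul] at h
    exact h
  | hm g k hg hk => exact hg.mul_right hk
  | hi g hg => exact hg.inv_right

/-! ### Prefixes on permutations -/

/-- A permutation acting below a prefix. -/
def lpFun (H : Halving X) (p : List Bool) (f : Equiv.Perm X) (x : X) : X :=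
  if h : ∃ y, x = H.pre p y then H.pre p (f h.choose) else x

theorem lpFun_pre (p : List Bool) (f : Equiv.Perm X) (y : X) :
    lpFun H p f (H.pre p y) = H.pre p (f y) := by
  have h : ∃ z, H.pre p y = H.pre p z := ⟨y, rfl⟩
  rw [lpFun, dif_pos h, ← pre_injective p h.choose_spec]

theorem lpFun_out (p : List Bool) (f : Equiv.Perm X) {x : X} (h : ¬∃ y, x = H.pre p y) :
    lpFun H p f x = x := dif_neg h

theorem lpFun_mul (p : List Bool) (f g : Equiv.Perm X) (x : X) :
    lpFun H p (f * g) x = lpFun H p f (lpFun H p g x) := by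
  by_cases h : ∃ y, x = H.pre p y
  · obtain ⟨y, rfl⟩ := h
    simp only [lpFun_pre, Equiv.Perm.mul_apply]
  · simp only [lpFun_out p _ h]

theorem lpFun_one (p : List Bool) (x : X) : lpFun H p 1 x = x := by
  by_cases h : ∃ y, x = H.pre p y
  · obtain ⟨y, rfl⟩ := h
    simp [lpFun_pre]
  · exact lpFun_out p _ h

variable (H)

/-- Acting below a prefix, as a homomorphism. -/
def lp (p : List Bool) : Equiv.Perm X →* Equiv.Perm X where
  toFun f :=
    { toFun := lpFun H p f
      invFun := lpFun H p f⁻¹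
      left_inv := fun x => by rw [← lpFun_mul, inv_mul_cancel, lpFun_one]
      right_inv := fun x => by rw [← lpFun_mul, mul_inv_cancel, lpFun_one] }
  map_one' := Equiv.ext (lpFun_one p)
  map_mul' f g := Equiv.ext (lpFun_mul p f g)

variable {H}

theorem lp_pre (p : List Bool) (f : Equiv.Perm X) (y : X) :
    lp H p f (H.pre p y) = H.pre p (f y) := lpFun_pre p f y

theorem lp_out (p : List Bool) (f : Equiv.Perm X) {x : X} (h : ¬∃ y, x = H.pre p y) :
    lp H p f x = x := lpFun_out p f h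

/-! ### Prefix endomorphisms -/

theorem piece_piece (p q v w : List Bool) (m : Set (X × X)) :
    piece H p q (piece H v w m) = piece H (p ++ v) (q ++ w) m := by
  ext ⟨x, y⟩
  simp only [piece, Set.image_image, ← pre_append]

theorem reg_prefix {b : Set (X × X)} (hb : Reg M b) (p q : List Bool) :
    Reg M (piece H p q b) := by
  obtain ⟨l, hl, rfl⟩ := hb
  refine ⟨l.map fun t => (p ++ t.1, q ++ t.2.1, t.2.2), ?_, ?_⟩
  · intro t ht
    obtain ⟨t', ht', rfl⟩ := List.mem_map.1 ht
    exact hl t' ht'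
  · ext z
    simp only [unionOf, Set.mem_ofPred_eq, List.mem_map, exists_exists_and_eq_and, ← piece_piece]
    exact ⟨fun ⟨a, ⟨t, ht, h⟩, e⟩ => ⟨t, ht, a, h, e⟩, fun ⟨t, ht, a, h, e⟩ => ⟨a, ⟨t, ht, h⟩, e⟩⟩

theorem isBis_prefix {b : Set (X × X)} (hb : IsBis M b) (p : List Bool) :
    IsBis M (piece H p p b) := by
  refine isBis_iff.2 ⟨⟨?_, ?_⟩, ?_, reg_prefix hb.2.2 p p⟩
  · rintro x y z h h'
    obtain ⟨a, c, hac, e⟩ := mem_piece.1 h
    obtain ⟨a', c', hac', e'⟩ := mem_piece.1 h'
    simp only [Prod.mk.injEq] at e e'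
    obtain rfl : a = a' := pre_injective p (e.1.symm.trans e'.1)
    rw [e.2, e'.2, hb.1.1 _ _ _ hac hac']
  · rintro x y z h h'
    obtain ⟨a, c, hac, e⟩ := mem_piece.1 h
    obtain ⟨a', c', hac', e'⟩ := mem_piece.1 h'
    simp only [Prod.mk.injEq] at e e'
    obtain rfl : c = c' := pre_injective p (e.2.symm.trans e'.2)
    rw [e.1, e'.1, hb.1.2 _ _ _ hac hac']
  · rw [Set.disjoint_left]
    rintro x ⟨y, h⟩ ⟨y', h'⟩
    obtain ⟨a, c, hac, e⟩ := mem_piece.1 h
    obtain ⟨a', c', hac', e'⟩ := mem_piece.1 h'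
    simp only [Prod.mk.injEq] at e e'
    obtain rfl : a = c' := pre_injective p (e.1.symm.trans e'.2)
    exact Set.disjoint_left.1 hb.2.1 ⟨c, hac⟩ ⟨a', hac'⟩

/-- A bisection below a prefix. -/
def preBis (p : List Bool) (b : Bis M) : Bis M := ⟨piece H p p b.1, isBis_prefix b.2 p⟩

theorem lp_swap (p : List Bool) (b : Bis M) :
    lp H p (swapPerm b) = swapPerm (preBis p b) := by
  ext x
  by_cases h : ∃ y, x = H.pre p y
  · obtain ⟨y, rfl⟩ := h
    rw [lp_pre]
    by_cases hy : y ∈ supp b.1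
    · rcases hy with ⟨z, hz⟩ | ⟨z, hz⟩
      · rw [swap_fwd b hz, swap_fwd (preBis p b) (piece_mem hz)]
      · rw [swap_bwd b hz, swap_bwd (preBis p b) (piece_mem hz)]
    · rw [swap_fix b hy, swap_fix (preBis p b)]
      rintro (⟨z, hz⟩ | ⟨z, hz⟩) <;> obtain ⟨a, c, hac, e⟩ := mem_piece.1 hz <;>
        simp only [Prod.mk.injEq] at e
      · exact hy (Or.inl ⟨c, pre_injective p e.1 ▸ hac⟩)
      · exact hy (Or.inr ⟨a, pre_injective p e.2 ▸ hac⟩)
  · rw [lp_out p _ h, swap_fix (preBis p b)]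
    rintro (⟨z, hz⟩ | ⟨z, hz⟩) <;> obtain ⟨a, c, -, e⟩ := mem_piece.1 hz <;>
      simp only [Prod.mk.injEq] at e
    · exact h ⟨_, e.1⟩
    · exact h ⟨_, e.2⟩

theorem supp_prefix (p : List Bool) (b : Set (X × X)) :
    supp (piece H p p b) = H.pre p '' supp b := by
  ext x
  constructor
  · rintro (⟨y, h⟩ | ⟨y, h⟩) <;> obtain ⟨a, c, hac, e⟩ := mem_piece.1 h <;>
      simp only [Prod.mk.injEq] at e
    · exact ⟨a, Or.inl ⟨c, hac⟩, e.1.symm⟩
    · exact ⟨c, Or.inr ⟨a, hac⟩, e.2.symm⟩
  · rintro ⟨a, ⟨c, h⟩ | ⟨c, h⟩, rfl⟩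
    · exact Or.inl ⟨_, piece_mem h⟩
    · exact Or.inr ⟨_, piece_mem h⟩

variable (M)

/-- The endomorphism placing an element below a prefix. -/
def endo (p : List Bool) : SchemaGroup M →* SchemaGroup M :=
  PresentedGroup.toGroup (f := fun b => tau (preBis p b)) <| by
    rintro r (⟨a, b, c, hd, hc, rfl⟩ | ⟨a, b, hb, rfl⟩ | ⟨a, b, c, hc, rfl⟩) <;>
      simp only [map_mul, map_inv, FreeGroup.lift_apply_of, mul_inv_eq_one]
    · refine tau_add _ _ _ ?_ ?_
      · show Disjoint (supp (piece H p p a.1)) (supp (piece H p p b.1))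
        rw [supp_prefix, supp_prefix]
        exact (Set.disjoint_image_iff (pre_injective p)).2 hd
      · simp only [preBis, hc, piece, Set.image_union]
    · refine tau_ginv _ _ ?_
      simp only [preBis, hb, ginv_piece]
    · refine tau_conj3 _ _ _ ?_
      simp only [preBis, hc, piece, Set.image_image]
      refine Set.image_congr fun q _ => ?_
      change (_, _) = (swapPerm (preBis p a) _, swapPerm (preBis p a) _)
      rw [← lp_swap, lp_pre, lp_pre]

variable {M}

theorem endo_tau (p : List Bool) (b : Bis M) : endo M p (tau b) = tau (preBis p b) :=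
  PresentedGroup.toGroup.of _

theorem schemaHom_endo (p : List Bool) (g : SchemaGroup M) :
    schemaHom M (endo M p g) = lp H p (schemaHom M g) := by
  have : (schemaHom M).comp (endo M p) = (lp H p).comp (schemaHom M) :=
    PresentedGroup.ext fun b => by
      show schemaHom M (endo M p (tau b)) = lp H p (schemaHom M (tau b))
      rw [endo_tau, schemaHom_tau, schemaHom_tau, lp_swap]
  exact congrArg (fun e => e g) this

theorem endo_endo (p q : List Bool) (g : SchemaGroup M) :
    endo M p (endo M q g) = endo M (p ++ q) g := by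
  have : (endo M p).comp (endo M q) = endo M (p ++ q) :=
    PresentedGroup.ext fun b => by
      show endo M p (endo M q (tau b)) = endo M (p ++ q) (tau b)
      rw [endo_tau, endo_tau, endo_tau]
      refine tau_congr ?_
      simp only [preBis, piece, Set.image_image, pre_append]
  exact congrArg (fun e => e g) this

/-- The exchange of two disjoint cylinders. -/
def exch {p q : List Bool} (h : Incomp H p q) : Bis M :=
  ⟨piece H p q (gid Set.univ), isBis_iff.2 ⟨⟨by
      rintro x y z hxy hxz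
      obtain ⟨a, c, ⟨hac, -⟩, e⟩ := mem_piece.1 hxy
      obtain ⟨a', c', ⟨hac', -⟩, e'⟩ := mem_piece.1 hxz
      simp only [Prod.mk.injEq] at e e' hac hac'
      rw [e.2, e'.2, ← hac, ← hac', pre_injective p (e.1.symm.trans e'.1)], by
      rintro x y z hxy hxz
      obtain ⟨a, c, ⟨hac, -⟩, e⟩ := mem_piece.1 hxy
      obtain ⟨a', c', ⟨hac', -⟩, e'⟩ := mem_piece.1 hxz
      simp only [Prod.mk.injEq] at e e' hac hac'
      rw [e.1, e'.1, hac, hac', pre_injective q (e.2.symm.trans e'.2)]⟩,
    Set.disjoint_left.2 (by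
      rintro x ⟨y, hxy⟩ ⟨y', hyx⟩
      obtain ⟨a, c, -, e⟩ := mem_piece.1 hxy
      obtain ⟨a', c', -, e'⟩ := mem_piece.1 hyx
      simp only [Prod.mk.injEq] at e e'
      exact h _ _ (e.1.symm.trans e'.2)),
    reg_piece M.one_mem⟩⟩

theorem exch_apply {p q : List Bool} (h : Incomp H p q) (x : X) :
    swapPerm (exch (M := M) h) (H.pre p x) = H.pre q x :=
  swap_fwd _ (piece_mem ⟨rfl, trivial⟩)

theorem endo_exch {p q : List Bool} (h : Incomp H p q) (g : SchemaGroup M) :
    tau (exch h) * endo M p g * (tau (exch h))⁻¹ = endo M q g := by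
  have : (MulAut.conj (tau (exch (M := M) h))).toMonoidHom.comp (endo M p) = endo M q :=
    PresentedGroup.ext fun b => by
      show tau (exch h) * endo M p (tau b) * (tau (exch h))⁻¹ = endo M q (tau b)
      rw [endo_tau, endo_tau]
      refine tau_conj _ _ _ ?_
      simp only [preBis, piece, Set.image_image, schemaHom_tau, exch_apply]
  exact congrArg (fun e => e g) this

theorem endo_ker {z : SchemaGroup M} (hz : schemaHom M z = 1) (p : List Bool) :
    schemaHom M (endo M p z) = 1 := by rw [schemaHom_endo, hz, map_one]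

theorem endo_ker_eq {z : SchemaGroup M} (hz : schemaHom M z = 1) {p q : List Bool}
    (h : Incomp H p q) : endo M p z = endo M q z := by
  rw [← endo_exch h z, ← (ker_central (endo_ker hz p) _).eq, mul_inv_cancel_right]

theorem endo_comm {p q : List Bool} (hpq : Incomp H p q) (g k : SchemaGroup M) :
    Commute (endo M p g) (endo M q k) := by
  induction g using tau_induction with
  | h1 => rw [map_one]; exact Commute.one_left _
  | hm g g' hg hg' => rw [map_mul]; exact hg.mul_left hg'
  | hi g hg => rw [map_inv]; exact hg.inv_left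
  | ht a =>
    induction k using tau_induction with
    | h1 => rw [map_one]; exact Commute.one_right _
    | hm g g' hg hg' => rw [map_mul]; exact hg.mul_right hg'
    | hi g hg => rw [map_inv]; exact hg.inv_right
    | ht b =>
      rw [endo_tau, endo_tau]
      refine tau_comm _ _ ?_
      show Disjoint (supp (piece H p p a.1)) (supp (piece H q q b.1))
      rw [supp_prefix, supp_prefix, Set.disjoint_left]
      rintro _ ⟨x, -, rfl⟩ ⟨y, -, e⟩
      exact hpq x y e.symm

theorem incomp_bits : Incomp H [false] [true] := incomp_cons (by decide) [] []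

variable (M)

/-- Acting in both halves at once. -/
def dbl : SchemaGroup M →* SchemaGroup M where
  toFun g := endo M [false] g * endo M [true] g
  map_one' := by simp
  map_mul' g k := by
    simp only [map_mul]
    rw [mul_assoc, ← mul_assoc (endo M [false] k), (endo_comm incomp_bits k g).eq]
    group

end Vale.Agent.P193
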