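import Vale.Agent.P193.Full.Inj.Push
import Mathlib.GroupTheory.QuotientGroup.Defs

/-! Every regular permutation is a product of swaps. -/

open Classical

noncomputable section

namespace Vale.Agent.P193

universe u

variable {X : Type u} {H : Halving X} {M : Coeff H}

variable (M) in
/-- The permutations with regular graphs. -/
def tableGroup : Subgroup (Equiv.Perm X) where
  carrier := {f | Reg M (graphOf f)}
  one_mem' := reg_graph_one
  mul_mem' := reg_graph_mul
  inv_mem' := reg_graph_inv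

theorem swapGroup_le : swapGroup M ≤ tableGroup M := by
  rw [← schemaHom_range]
  rintro _ ⟨g, rfl⟩
  exact reg_graph_hom g

theorem swapGroup_conj {f : Equiv.Perm X} (hf : f ∈ tableGroup M) {g : Equiv.Perm X}
    (hg : g ∈ swapGroup M) : f * g * f⁻¹ ∈ swapGroup M := by
  induction hg using Subgroup.closure_induction with
  | mem x hx =>
    obtain ⟨b, rfl⟩ := hx
    rw [swap_conj f b ⟨_, isBis_image hf b.2⟩ rfl]
    exact Subgroup.subset_closure ⟨_, rfl⟩
  | one => simp
  | mul x y _ _ hx hy =>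
    have e : f * (x * y) * f⁻¹ = (f * x * f⁻¹) * (f * y * f⁻¹) := by group
    rw [e]
    exact mul_mem hx hy
  | inv x _ hx =>
    have e : f * x⁻¹ * f⁻¹ = (f * x * f⁻¹)⁻¹ := by group
    rw [e]
    exact inv_mem hx

theorem lp_lp (p q : List Bool) (f : Equiv.Perm X) : lp H p (lp H q f) = lp H (p ++ q) f := by
  ext x
  by_cases h : ∃ y, x = H.pre p y
  · obtain ⟨y, rfl⟩ := h
    rw [lp_pre]
    by_cases h' : ∃ z, y = H.pre q z
    · obtain ⟨z, rfl⟩ := h'
      rw [lp_pre, ← pre_append, ← pre_append, lp_pre]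
    · rw [lp_out q f h', lp_out (p ++ q) f]
      rintro ⟨z, hz⟩
      rw [pre_append] at hz
      exact h' ⟨z, pre_injective p hz⟩
  · rw [lp_out p _ h, lp_out (p ++ q) f]
    rintro ⟨z, hz⟩
    rw [pre_append] at hz
    exact h ⟨_, hz⟩

theorem lp_exch {p q : List Bool} (h : Incomp H p q) (f : Equiv.Perm X) :
    swapPerm (exch (M := M) h) * lp H p f = lp H q f * swapPerm (exch (M := M) h) := by
  ext x
  rw [Equiv.Perm.mul_apply, Equiv.Perm.mul_apply]
  by_cases hp : ∃ y, x = H.pre p y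
  · obtain ⟨y, rfl⟩ := hp
    rw [lp_pre, exch_apply, exch_apply, lp_pre]
  · by_cases hq : ∃ y, x = H.pre q y
    · obtain ⟨y, rfl⟩ := hq
      rw [lp_out p f hp, swap_bwd (exch (M := M) h) (piece_mem ⟨rfl, trivial⟩),
        lp_out q f]
      rintro ⟨z, hz⟩
      exact h _ _ hz
    · have hx : swapPerm (exch (M := M) h) x = x := by
        refine swap_fix _ fun hs => ?_
        rcases supp_piece hs with ⟨y, -, e⟩ | ⟨y, -, e⟩
        · exact hp ⟨y, e⟩
        · exact hq ⟨y, e⟩
      rw [lp_out p f hp, hx, lp_out q f hq]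

theorem reg_graph_lp {f : Equiv.Perm X} (hf : f ∈ tableGroup M) (p : List Bool) :
    lp H p f ∈ tableGroup M := by
  show Reg M (graphOf (lp H p f))
  convert reg_union (reg_prefix hf p p)
    (reg_gid_compl_gdom (reg_piece (v := p) (w := p) M.one_mem)) using 1
  ext ⟨x, y⟩
  constructor
  · intro hxy
    simp only [graphOf, Set.mem_ofPred_eq] at hxy
    by_cases h : ∃ a, x = H.pre p a
    · obtain ⟨a, rfl⟩ := h
      rw [lp_pre] at hxy
      subst hxy
      exact Or.inl (piece_mem rfl)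
    · rw [lp_out p f h] at hxy
      refine Or.inr ⟨hxy, fun ⟨z, hz⟩ => ?_⟩
      obtain ⟨a, b, -, e⟩ := mem_piece.1 hz
      simp only [Prod.mk.injEq] at e
      exact h ⟨a, e.1⟩
  · rintro (h | ⟨h, hx⟩)
    · obtain ⟨a, b, hab, e⟩ := mem_piece.1 h
      simp only [Prod.mk.injEq] at e
      obtain ⟨rfl, rfl⟩ := e
      show lp H p f (H.pre p a) = H.pre p b
      rw [lp_pre, show f a = b from hab]
    · simp only at h hx
      subst h
      refine lp_out p f ?_
      rintro ⟨a, rfl⟩
      exact hx ⟨_, piece_mem ⟨rfl, trivial⟩⟩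

theorem idem_targets {l : List (Dat X)} (hl : ∀ t ∈ l, M.mem t.2.2) (u : List Bool) :
    Idem M {y | ∃ t ∈ l, (u <+: t.2.1 ∧ u ≠ t.2.1) ∧ y ∈ gran t.2.2} := by
  induction l with
  | nil => convert idem_empty (M := M); simp
  | cons a l ih =>
    have hrec := ih fun t ht => hl t (List.mem_cons_of_mem _ ht)
    by_cases ha : u <+: a.2.1 ∧ u ≠ a.2.1
    · convert idem_union (idem_gran (hl a (List.mem_cons_self ..))) hrec using 1
      ext y
      simp [ha]
    · convert hrec using 1
      ext y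
      simp [ha]

/-- A regular permutation is rotations times two copies of itself. -/
theorem exists_rot_eq {f : Equiv.Perm X} (hf : f ∈ tableGroup M) :
    ∃ g g' : Equiv.Perm X, g ∈ swapGroup M ∧ g' ∈ swapGroup M ∧
      f * g = g' * (lp H [false] f * lp H [true] f) := by
  obtain ⟨N, l, -, hl, he⟩ := reg_normal (show Reg M (graphOf f) from hf) 0
  let T' : Tree M :=
    { F := ⟨fun u => {y | ∃ t ∈ l, (u <+: t.2.1 ∧ u ≠ t.2.1) ∧ y ∈ gran t.2.2},
        fun u => idem_targets (fun t ht => (hl t ht).1) u⟩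
      bound := (l.map fun t : Dat X => t.2.1.length).sum
      mono := by
        rintro u c y ⟨t, ht, ⟨hp, hne⟩, hy⟩
        refine ⟨t, ht, ⟨(List.prefix_append u [c]).trans hp, ?_⟩, hy⟩
        rintro rfl
        have := hp.length_le
        simp at this
      vanish := by
        intro u hu
        ext y
        simp only [Set.mem_empty_iff_false, iff_false]
        rintro ⟨t, ht, ⟨hp, hne⟩, -⟩
        have h1 := le_list_sum (List.mem_map_of_mem (f := fun t : Dat X => t.2.1.length) ht)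
        exact hne (hp.eq_of_length (le_antisymm hp.length_le (h1.trans hu))) }
  refine ⟨schemaHom M (fullTree M N).rot, schemaHom M T'.rot, ?_, ?_, ?_⟩
  · rw [← schemaHom_range]; exact ⟨_, rfl⟩
  · rw [← schemaHom_range]; exact ⟨_, rfl⟩
  ext z
  obtain ⟨⟨c, z'⟩, rfl⟩ := H.cons.surjective z
  obtain ⟨v, x, hv, rfl⟩ := pre_surj H N z'
  have hgraph : (H.pre v x, f (H.pre v x)) ∈ unionOf H l := by rw [← he]; rfl
  obtain ⟨⟨v', w, μ⟩, ht, hp⟩ := hgraph
  obtain ⟨x', y, hxy, e⟩ := mem_piece.1 hp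
  simp only [Prod.mk.injEq] at e
  obtain ⟨hμ, hlen, -⟩ := hl _ ht
  simp only at hμ hlen hxy
  obtain ⟨rfl, rfl⟩ := pre_inj_len (hv.trans hlen.symm) e.1
  have happly : ∀ (t : Dat X), t ∈ l → ∀ a b, (a, b) ∈ t.2.2 →
      f (H.pre t.1 a) = H.pre t.2.1 b := fun t ht a b hab => by
    have : (H.pre t.1 a, H.pre t.2.1 b) ∈ graphOf f := by
      rw [he]; exact ⟨t, ht, piece_mem hab⟩
    exact this
  have h1 : schemaHom M (fullTree M N).rot (H.pre (c :: v) x) = H.pre (v ++ [c]) x := by
    refine Tree.rot_leaf _ c (fun u hu hne => ?_) ?_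
    · rw [fullTree_full N u (hv ▸ lt_of_le_of_ne hu.length_le fun h => hne (hu.eq_of_length h))]
      trivial
    · rw [(fullTree M N).vanish v (le_of_eq hv.symm)]
      exact Set.notMem_empty x
  have hout : y ∉ T'.F.1 w := by
    rintro ⟨⟨v₂, w₂, μ₂⟩, ht₂, ⟨⟨r, hr⟩, hne⟩, x₂, hxy₂⟩
    simp only at hr hne hxy₂
    subst hr
    obtain ⟨hμ₂, hlen₂, -⟩ := hl _ ht₂
    simp only at hμ₂ hlen₂
    have e1 : f (H.pre v₂ x₂) = H.pre (w ++ r) y := happly _ ht₂ _ _ hxy₂
    have e2 : f (H.pre v (H.pre r x)) = H.pre w (H.pre r y) :=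
      happly _ ht _ _ ((mem_pre_iff hμ r x y).2 hxy)
    rw [pre_append, ← e2] at e1
    obtain ⟨rfl, rfl⟩ := pre_inj_len (hlen₂.trans hv.symm) (f.injective e1)
    obtain ⟨y₂, hy₂⟩ := (idem_pre (idem_gdom hμ₂) r x).1 ⟨y, hxy₂⟩
    cases r with
    | nil => simp at hne
    | cons d r =>
      have e3 : H.pre w (H.pre ((!d) :: r) y) =
          H.pre (w ++ (d :: r)) (H.pre ((!d) :: r) y₂) :=
        (happly _ ht _ _ ((mem_pre_iff hμ ((!d) :: r) x y).2 hxy)).symm.trans
          (happly _ ht₂ _ _ ((mem_pre_iff hμ₂ ((!d) :: r) x y₂).2 hy₂))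
      rw [pre_append] at e3
      exact incomp_cons (by cases d <;> decide) r r _ _ (pre_injective w e3)
  have h2 : schemaHom M T'.rot (H.pre (c :: w) y) = H.pre (w ++ [c]) y :=
    T'.rot_leaf c (fun u hu hne => ⟨_, ht, ⟨hu, hne⟩, x, hxy⟩) hout
  have h3 : (lp H [false] f * lp H [true] f) (H.pre [c] (H.pre v x)) =
      H.pre [c] (f (H.pre v x)) := by
    cases c
    · rw [Equiv.Perm.mul_apply, lp_out [true] f
        (fun ⟨_, h⟩ => incomp_bits _ _ h), lp_pre]
    · rw [Equiv.Perm.mul_apply, lp_pre, lp_out [false] f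
        (fun ⟨_, h⟩ => incomp_bits _ _ h.symm)]
  show f (schemaHom M (fullTree M N).rot (H.pre (c :: v) x)) =
    schemaHom M T'.rot ((lp H [false] f * lp H [true] f) (H.pre [c] (H.pre v x)))
  rw [h1, h3, e.2]
  show _ = schemaHom M T'.rot (H.pre (c :: w) y)
  rw [h2, pre_append, pre_append]
  exact happly _ ht _ _ ((mem_pre_iff hμ [c] x y).2 hxy)

theorem tableGroup_le : tableGroup M ≤ swapGroup M := by
  let N := (swapGroup M).subgroupOf (tableGroup M)
  have hN : N.Normal := ⟨fun n hn g => by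
    simp only [N, Subgroup.mem_subgroupOf] at hn ⊢
    exact swapGroup_conj g.2 hn⟩
  let q : tableGroup M →* tableGroup M ⧸ N := QuotientGroup.mk' N
  let half : List Bool → tableGroup M → tableGroup M :=
    fun p f => ⟨lp H p f.1, reg_graph_lp f.2 p⟩
  have hq : ∀ f : tableGroup M, q f = 1 ↔ f.1 ∈ swapGroup M := fun f => by
    simp [q, N, Subgroup.mem_subgroupOf]
  have hex : ∀ {p p' : List Bool}, Incomp H p p' → ∀ f, q (half p f) = q (half p' f) := by
    intro p p' h f
    have hs : swapPerm (exch (M := M) h) ∈ swapGroup M := Subgroup.subset_closure ⟨_, rfl⟩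
    let s : tableGroup M := ⟨_, swapGroup_le hs⟩
    have hs1 : q s = 1 := (hq s).2 hs
    have : q (s * half p f) = q (half p' f * s) := congrArg q (Subtype.ext (lp_exch h f.1))
    rwa [map_mul, map_mul, hs1, one_mul, mul_one] at this
  have hdbl : ∀ f : tableGroup M, q f = q (half [false] f) * q (half [false] f) := by
    intro f
    obtain ⟨g, g', hg, hg', e⟩ := exists_rot_eq f.2
    let g₁ : tableGroup M := ⟨g, swapGroup_le hg⟩
    let g₂ : tableGroup M := ⟨g', swapGroup_le hg'⟩
    have : q (f * g₁) = q (g₂ * (half [false] f * half [true] f)) := congrArg q (Subtype.ext e)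
    rw [map_mul, map_mul, map_mul, (hq g₁).2 hg, (hq g₂).2 hg', mul_one, one_mul,
      ← hex (incomp_bits (H := H)) f] at this
    exact this
  intro f hf
  have h00 : q (half [false] (half [false] ⟨f, hf⟩)) = q (half [false] ⟨f, hf⟩) := by
    have e : half [false] (half [false] ⟨f, hf⟩) = half [false, false] ⟨f, hf⟩ :=
      Subtype.ext (lp_lp [false] [false] f)
    rw [e, hex (p := [false, false]) (p' := [true]) (incomp_cons (by decide) [false] []),
      hex (p := [true]) (p' := [false]) incomp_bits.symm]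
  have h := hdbl (half [false] ⟨f, hf⟩)
  rw [h00] at h
  refine (hq ⟨f, hf⟩).1 ?_
  rw [hdbl, mul_eq_left.1 h.symm, one_mul]

theorem tableGroup_eq : tableGroup M = swapGroup M := le_antisymm tableGroup_le swapGroup_le

end Vale.Agent.P193
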